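import Vale.Agent.P237.All.Tiny.MidCheck

/-!
P237, dimension four: the bound for excess up to `.0296`, by the rational check.
-/

noncomputable section

namespace Vale.Agent.P237.All.Transport.Tiny

theorem threeRows_ok :
    midCheck 3 (37 / 1250) 36 [(75, 37, 72), (80, 41, 75), (90, 55, 80), (100, 0, 90)] = true := by
  decide +kernel

/-- Dimension four: the bound for excess up to `37 / 1250`. -/
theorem hasBound_three {J k : ℝ} (hJ : J ≤ Real.exp (k / (((3 : ℕ) : ℝ) + 1)) * (2 * mass (3 + 1) semi 1))
    (hk : k ≤ ((37 / 1250 : ℚ) : ℝ)) : HasBound 3 J :=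
  hasBound_of_midCheck threeRows_ok hJ hk

end Vale.Agent.P237.All.Transport.Tiny
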