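import Vale.Agent.P237.All.Tiny.MidCheck

/-!
P237, dimensions thirty to ninety-nine: the bound for small excess, by the rational check.
-/

noncomputable section

namespace Vale.Agent.P237.All.Transport.Tiny

/-- The thresholds in millionths, from `p = 29`. -/
def midK : List ℕ :=
  [16400, 16100, 15800, 15500, 15300, 15100, 14900, 14800, 14700, 14600, 14300, 14000,
    13700, 13500, 13300, 13200, 13100, 13000, 12900, 12800, 12700, 12600, 12000, 11400,
    10800, 9980, 9140, 8370, 7660, 7010, 6420, 5890, 5400, 4960, 4530, 4150,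
    3790, 3470, 3180, 2910, 2660, 2430, 2220, 2040, 1860, 1700, 1560, 1430,
    1310, 1190, 1090, 1000, 919, 841, 770, 704, 644, 590, 541, 496,
    456, 417, 381, 349, 320, 294, 269, 247, 226, 206]

/-- For seven dimensions each: the middle cells and the rows (end, chord start, sum end). -/
def midData : List (ℕ × List (ℕ × ℕ × ℕ)) :=
  [(23, [(48, 37, 43), (50, 37, 43), (53, 37, 48), (56, 37, 46), (59, 37, 44), (64, 37, 54), (69, 37, 49),
      (77, 42, 63), (85, 37, 61), (93, 37, 63), (100, 37, 58)]),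
    (22, [(46, 37, 43), (48, 37, 43), (50, 37, 42), (53, 37, 47), (56, 37, 45), (59, 37, 44), (64, 38, 57),
      (69, 37, 51), (74, 37, 50), (79, 37, 50), (84, 37, 52), (89, 37, 55), (94, 37, 57), (100, 40, 61)]),
    (21, [(43, 37, 40), (44, 37, 40), (46, 37, 43), (48, 37, 43), (50, 37, 42), (53, 37, 47), (56, 37, 45),
      (59, 37, 45), (62, 37, 44), (65, 37, 44), (70, 38, 59), (75, 38, 57), (78, 37, 47), (81, 37, 49),
      (84, 37, 51), (87, 37, 53), (90, 37, 56), (93, 38, 57), (96, 39, 61), (98, 37, 55), (100, 37, 58)]),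
    (20, [(41, 37, 40), (42, 37, 40), (43, 37, 40), (45, 37, 43), (47, 37, 43), (49, 37, 43), (52, 37, 49),
      (55, 37, 46), (58, 37, 45), (61, 37, 45), (64, 37, 44), (67, 37, 45), (70, 37, 45), (73, 37, 46),
      (76, 37, 47), (79, 37, 49), (82, 37, 52), (85, 38, 55), (87, 37, 51), (89, 37, 52), (91, 37, 55),
      (93, 38, 56), (94, 37, 51), (95, 37, 52), (96, 37, 52), (97, 37, 53), (98, 37, 54), (99, 37, 55),
      (100, 37, 57)]),
    (20, [(41, 37, 40), (42, 37, 40), (44, 36, 42), (46, 37, 42), (48, 37, 42), (50, 37, 42), (53, 37, 46),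
      (56, 37, 45), (59, 37, 44), (62, 37, 44), (65, 37, 44), (68, 37, 44), (71, 37, 45), (74, 37, 46),
      (77, 37, 48), (80, 37, 50), (83, 37, 55), (85, 37, 49), (87, 37, 50), (89, 37, 52), (91, 37, 58),
      (93, 38, 56), (94, 37, 51), (95, 37, 51), (96, 37, 52), (97, 37, 53), (98, 37, 54), (99, 37, 55),
      (100, 37, 61)]),
    (20, [(41, 37, 39), (42, 37, 39), (44, 37, 42), (46, 37, 41), (48, 37, 41), (51, 37, 46), (54, 37, 44),
      (57, 37, 43), (60, 37, 43), (63, 37, 43), (66, 37, 43), (69, 37, 44), (72, 37, 45), (75, 37, 46),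
      (78, 37, 48), (81, 37, 51), (84, 38, 54), (86, 37, 49), (88, 37, 51), (90, 37, 55), (92, 38, 54),
      (93, 37, 49), (94, 37, 50), (95, 37, 50), (96, 37, 51), (97, 37, 52), (98, 37, 53), (99, 37, 56),
      (100, 38, 52)]),
    (21, [(44, 37, 41), (46, 37, 40), (48, 37, 40), (51, 37, 44), (54, 37, 42), (57, 37, 42), (60, 37, 42),
      (63, 37, 42), (66, 37, 43), (69, 37, 43), (72, 37, 44), (75, 37, 46), (78, 37, 48), (81, 37, 52),
      (84, 39, 55), (86, 37, 49), (88, 37, 51), (90, 38, 51), (92, 38, 54), (93, 37, 48), (94, 37, 49),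
      (95, 37, 50), (96, 37, 51), (97, 37, 52), (98, 37, 53), (99, 38, 51), (100, 38, 51)]),
    (21, [(44, 37, 40), (46, 37, 40), (49, 38, 46), (52, 37, 42), (55, 37, 42), (58, 37, 41), (61, 37, 41),
      (64, 37, 42), (67, 37, 42), (70, 37, 43), (73, 37, 44), (76, 37, 46), (79, 37, 48), (82, 38, 50),
      (84, 37, 47), (86, 37, 48), (88, 37, 51), (90, 38, 50), (92, 38, 55), (93, 37, 48), (94, 37, 48),
      (95, 37, 49), (96, 37, 50), (97, 37, 51), (98, 37, 54), (99, 38, 50), (100, 38, 50)]),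
    (21, [(44, 37, 40), (46, 37, 39), (49, 37, 45), (52, 37, 42), (55, 37, 41), (58, 37, 41), (61, 37, 41),
      (64, 37, 41), (67, 37, 42), (70, 37, 43), (73, 37, 44), (76, 37, 46), (79, 37, 49), (82, 38, 51),
      (84, 37, 46), (86, 37, 48), (88, 37, 52), (90, 38, 50), (92, 39, 53), (93, 37, 47), (94, 37, 48),
      (95, 37, 49), (96, 37, 50), (97, 37, 52), (98, 38, 49), (99, 38, 49), (100, 38, 50)]),
    (21, [(44, 37, 39), (46, 37, 39), (49, 37, 44), (52, 37, 41), (55, 37, 41), (58, 37, 40), (61, 37, 41),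
      (64, 37, 41), (67, 37, 42), (70, 37, 42), (73, 37, 44), (76, 37, 46), (79, 37, 50), (82, 38, 54),
      (84, 37, 46), (86, 37, 48), (88, 38, 48), (90, 38, 50), (92, 39, 56), (93, 37, 47), (94, 37, 48),
      (95, 37, 49), (96, 37, 50), (97, 37, 55), (98, 38, 48), (99, 38, 49), (100, 38, 49)])]

/-- The threshold for `29 ≤ p ≤ 98`. -/
def midKOf (p : ℕ) : ℚ := (midK.getD (p - 29) 0 : ℕ) / 1000000

/-- The check at `p = i + 29`. -/
def midRow (i : ℕ) : Bool :=
  let d := midData.getD (i / 7) (0, [])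
  midCheck (i + 29) (midKOf (i + 29)) d.1 d.2

theorem midRows_ok : (List.range 70).all midRow = true := by decide +kernel

/-- Dimensions thirty to ninety-nine: the bound for excess up to `midKOf p`. -/
theorem hasBound_mid {p : ℕ} (hp : 29 ≤ p) (hp' : p ≤ 98) {J k : ℝ}
    (hJ : J ≤ Real.exp (k / ((p : ℝ) + 1)) * (2 * mass (p + 1) semi 1))
    (hk : k ≤ (midKOf p : ℝ)) : HasBound p J := by
  have h := List.all_eq_true.1 midRows_ok (p - 29) (List.mem_range.2 (by omega))
  rw [midRow, show p - 29 + 29 = p by omega] at h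
  exact hasBound_of_midCheck h hJ hk

end Vale.Agent.P237.All.Transport.Tiny
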