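import Vale.Agent.P237.All.CertTools
import Mathlib.Analysis.Complex.ExponentialBounds

/-!
P237, every dimension, tiny excess: the numerical inequalities of the threshold
`exp (- 5 / 4 √m) / 5` (`notes/P237h8/tiny-k-02Dec.md`).
-/

noncomputable section

open Real Set

namespace Vale.Agent.P237.All.Transport.Tiny

/-- Powers of `semi` from below. -/
theorem semi_pow_exp (p : ℕ) {T : ℝ} (hT : T ∈ Ioo (-1 : ℝ) 1) :
    exp (-((p : ℝ) / 2 * (T ^ 2 + (T ^ 2) ^ 2 / (2 * (1 - T ^ 2))))) ≤ semi T ^ p := by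
  have hs := semi_pos hT
  set u := T ^ 2 with hu
  have hu0 : 0 ≤ u := sq_nonneg T
  have hu1 : u < 1 := by rw [hu]; nlinarith [hT.1, hT.2]
  have h1u : 0 < 1 - u := by linarith
  have key : -(u + u ^ 2 / (2 * (1 - u))) ≤ log (1 - u) := by
    have h := Real.self_le_sinh_iff.2 (Real.log_nonneg ((one_le_inv₀ h1u).2 (by linarith)))
    rw [Real.sinh_log (inv_pos.2 h1u), Real.log_inv, inv_inv] at h
    have e : ((1 - u)⁻¹ - (1 - u)) / 2 = u + u ^ 2 / (2 * (1 - u)) := by
      field_simp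
      ring
    linarith
  refine le_of_le_of_eq ?_ (Real.exp_log (pow_pos hs p))
  rw [Real.exp_le_exp, Real.log_pow, semi, Real.log_sqrt h1u.le]
  nlinarith [mul_le_mul_of_nonneg_left key (show 0 ≤ (p : ℝ) / 2 by positivity)]

theorem semi_pow_exp' (p : ℕ) {T c : ℝ} (hT : T ∈ Ioo (-1 : ℝ) 1)
    (hc : T ^ 2 + (T ^ 2) ^ 2 / (2 * (1 - T ^ 2)) ≤ c) : exp (-((p : ℝ) / 2 * c)) ≤ semi T ^ p :=
  (exp_le_exp.2 (neg_le_neg (mul_le_mul_of_nonneg_left hc (by positivity)))).trans (semi_pow_exp p hT)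

theorem exp_neg_rational {c : ℝ} (hc : c ≤ -(27 / 10)) : exp c ≤ 7 / 100 := by
  refine (exp_le_exp.2 hc).trans ?_
  rw [Real.exp_neg, inv_le_comm₀ (exp_pos _) (by norm_num)]
  have h1 := Real.exp_one_gt_d9
  have h2 := Real.quadratic_le_exp_of_nonneg (show (0 : ℝ) ≤ 7 / 10 by norm_num)
  have h3 : exp 1 * exp 1 * exp (7 / 10) = exp (27 / 10) := by
    rw [← Real.exp_add, ← Real.exp_add]; norm_num
  rw [← h3]
  refine le_trans ?_ (mul_le_mul (mul_le_mul h1.le h1.le (by norm_num) (exp_pos 1).le) h2 (by norm_num)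
    (by positivity))
  norm_num

theorem exp_four {c : ℝ} (hc : c ≤ 136 / 100) : exp c ≤ 4 := by
  refine (exp_le_exp.2 hc).trans ?_
  have h : (136 / 100 : ℝ) ≤ log 4 := by
    rw [show (4 : ℝ) = 2 ^ 2 by norm_num, Real.log_pow]
    push_cast
    linarith [Real.log_two_gt_d9]
  exact (exp_le_exp.2 h).trans (le_of_eq (Real.exp_log (by norm_num)))

/-- The exponent on the short range of dimensions. -/
def smallExp (x : ℝ) : ℝ := 1077 / 10000 * (x ^ 2 - 1) - 5 / 4 * x

theorem smallExp_le {a b c x : ℝ} (hx : x ∈ Icc a b) (ha : smallExp a ≤ c) (hb : smallExp b ≤ c) :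
    smallExp x ≤ c := by
  unfold smallExp at *
  rcases le_total (1077 / 10000 * (a + b)) (5 / 4) with h | h
  · nlinarith [mul_nonneg (sub_nonneg.2 hx.1) (sub_nonneg.2 hx.2),
      mul_nonneg (sub_nonneg.2 hx.1) (sub_nonneg.2 h)]
  · nlinarith [mul_nonneg (sub_nonneg.2 hx.1) (sub_nonneg.2 hx.2),
      mul_nonneg (sub_nonneg.2 hx.2) (sub_nonneg.2 h)]

/-- Below dimension 161 the threshold stays below the bump at `11/25`. -/
theorem small_dim {x : ℝ} (hx0 : 547 / 100 ≤ x) (hx1 : x ≤ 1267 / 100) :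
    exp (smallExp x) < 9 / 400000 * x ^ 5 := by
  rcases le_total x (88 / 10) with h | h
  · refine (exp_neg_rational (smallExp_le ⟨hx0, h⟩ (by norm_num [smallExp]) (by norm_num [smallExp]))).trans_lt ?_
    nlinarith [pow_le_pow_left₀ (by norm_num) hx0 5]
  rcases le_total x (116 / 10) with h' | h'
  · have h1 : exp (smallExp x) ≤ 1 :=
      Real.exp_le_one_iff.2 (smallExp_le ⟨h, h'⟩ (by norm_num [smallExp]) (by norm_num [smallExp]))
    nlinarith [pow_le_pow_left₀ (by norm_num) h 5]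
  · refine (exp_four (smallExp_le ⟨h', hx1⟩ (by norm_num [smallExp]) (by norm_num [smallExp]))).trans_lt ?_
    nlinarith [pow_le_pow_left₀ (by norm_num) h' 5]

/-- From dimension 160 on. -/
theorem large_dim {x : ℝ} (hx : 1264 / 100 ≤ x) :
    exp (-(5 / 4 * x)) / 5 < exp (-(12248 / 10000 * x + 187 / 100)) * (36 * x / 382) := by
  have e : exp (-(12248 / 10000 * x + 187 / 100)) =
      exp (-(5 / 4 * x)) * (exp (252 / 10000 * x) / exp (187 / 100)) := by
    rw [← Real.exp_sub, ← Real.exp_add]; ring_nf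
  have h1 : 252 / 10000 * x + 1 ≤ exp (252 / 10000 * x) := Real.add_one_le_exp _
  have h2 : exp (187 / 100) ≤ 13 / 2 := by
    rw [show (187 / 100 : ℝ) = -(-(187 / 100)) by ring, Real.exp_neg, inv_le_comm₀ (exp_pos _) (by norm_num)]
    have h3 : exp (-(187 / 100)) = exp (-1) * exp (-(87 / 100)) := by rw [← Real.exp_add]; norm_num
    rw [h3]
    have h4 : (3678 / 10000 : ℝ) ≤ exp (-1) := by linarith [Real.exp_neg_one_gt_d9]
    have h5 : (4185 / 10000 : ℝ) ≤ exp (-(87 / 100)) := by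
      rw [Real.exp_neg, le_inv_comm₀ (by norm_num) (exp_pos _)]
      have := Real.exp_bound' (show (0 : ℝ) ≤ 87 / 100 by norm_num) (by norm_num) (show 0 < 6 by norm_num)
      refine this.trans ?_
      norm_num [Finset.sum_range_succ, Nat.factorial]
    refine le_trans ?_ (mul_le_mul h4 h5 (by norm_num) (exp_pos _).le)
    norm_num
  rw [e, mul_assoc, div_eq_mul_one_div]
  refine mul_lt_mul_of_pos_left ?_ (exp_pos _)
  rw [div_mul_eq_mul_div, lt_div_iff₀ (exp_pos _)]
  have h6 := mul_le_mul_of_nonneg_right h1 (show 0 ≤ 36 * x / 382 by linarith)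
  nlinarith

/-- The threshold is below the central bound. -/
theorem core_dim {x : ℝ} (hx : 547 / 100 ≤ x) : x * (exp (-(5 / 4 * x)) / 5) < 24 / 10000 := by
  have h1 : (800 : ℝ) * (1 + (5 / 4 * x - 27 / 4)) ≤ exp (5 / 4 * x) := by
    have h2 : (800 : ℝ) ≤ exp (27 / 4) := by
      have h3 : exp (27 / 4) = exp 1 ^ 6 * exp (3 / 4) := by
        rw [← Real.exp_nat_mul, ← Real.exp_add]; norm_num
      rw [h3]
      refine le_trans ?_ (mul_le_mul (pow_le_pow_left₀ (by norm_num) Real.exp_one_gt_d9.le 6)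
        (Real.quadratic_le_exp_of_nonneg (by norm_num : (0 : ℝ) ≤ 3 / 4)) (by norm_num) (by positivity))
      norm_num
    have h4 : 1 + (5 / 4 * x - 27 / 4) ≤ exp (5 / 4 * x - 27 / 4) := by
      linarith [Real.add_one_le_exp (5 / 4 * x - 27 / 4)]
    refine le_trans (mul_le_mul h2 h4 (by linarith) (exp_pos _).le) (le_of_eq ?_)
    rw [← Real.exp_add]; congr 1; ring
  have e : x * (exp (-(5 / 4 * x)) / 5) = x / (5 * exp (5 / 4 * x)) := by
    rw [Real.exp_neg]; field_simp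
  rw [e, div_lt_iff₀ (by positivity)]
  linarith

end Vale.Agent.P237.All.Transport.Tiny
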