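import Vale.Agent.P237.All.Tiny.Point
import Vale.Agent.P237.All.Tiny.Num

/-!
P237, every dimension from thirty on: the bound for excess up to `exp (- 5 / 4 √m) / 5`
(`notes/P237h8/tiny-k-02Dec.md`).
-/

noncomputable section

open MeasureTheory Set Real intervalIntegral

namespace Vale.Agent.P237.All.Transport.Tiny

variable {f : ℝ → ℝ}

/-- The integral of the semicircle, from above. -/
theorem mass_semi_le_root (p : ℕ) :
    mass (p + 1) semi 1 * √((p : ℝ) + 1) ≤ 1254 / 1000 := by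
  have h := mass_one_pos isProfile_semi (p + 1)
  have h1 := mul_le_mul_of_nonneg_right (mass_semi_anti p) h.le
  rw [mass_semi_mul] at h1
  have h2 : π / (2 * ((p : ℝ) + 2)) ≤ 1571 / 1000 / ((p : ℝ) + 1) := by
    rw [div_le_div_iff₀ (by positivity) (by positivity)]
    nlinarith [Real.pi_lt_d4, Real.pi_pos, (Nat.cast_nonneg p : (0 : ℝ) ≤ p)]
  have h3 := h1.trans h2
  rw [le_div_iff₀ (by positivity)] at h3
  refine (pow_le_pow_iff_left₀ (by positivity) (by norm_num) two_ne_zero).1 ?_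
  rw [mul_pow, sq_sqrt (by positivity)]
  nlinarith

/-- The excess against `k`. -/
theorem excess_le_k {p : ℕ} (f : ℝ → ℝ) {k : ℝ} (hk0 : k ≤ 1 / 1000)
    (hk : 2 * mass (p + 1) f 1 ≤ exp (k / ((p : ℝ) + 1)) * (2 * mass (p + 1) semi 1))
    (hpos : 0 < excess p f) :
    0 < k ∧ excess p f ≤ 126 / 100 * k / (√((p : ℝ) + 1)) ^ 3 := by
  have hP := mass_one_pos isProfile_semi (p + 1)
  have hE : excess p f ≤ (exp (k / ((p : ℝ) + 1)) - 1) * mass (p + 1) semi 1 := by
    rw [excess]; linarith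
  have hk1 : 0 < k := by
    by_contra h
    push Not at h
    have : exp (k / ((p : ℝ) + 1)) ≤ 1 :=
      Real.exp_le_one_iff.2 (div_nonpos_of_nonpos_of_nonneg h (by positivity))
    nlinarith
  refine ⟨hk1, hE.trans ?_⟩
  have hx := mass_semi_le_root p
  set x := √((p : ℝ) + 1) with hxD
  have hx0 : 0 < x := Real.sqrt_pos.2 (by positivity)
  have hx2 : x ^ 2 = (p : ℝ) + 1 := sq_sqrt (by positivity)
  set y := k / ((p : ℝ) + 1)
  have hy0 : 0 ≤ y := by positivity
  have hy1 : y ≤ 1 / 1000 := (div_le_self hk1.le (by linarith [(Nat.cast_nonneg p : (0 : ℝ) ≤ p)])).trans hk0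
  have hy : exp y - 1 ≤ 1002 / 1000 * y := by
    have h2 := Real.exp_bound' hy0 (by linarith) (show 0 < 2 by norm_num)
    norm_num [Finset.sum_range_succ, Nat.factorial] at h2
    nlinarith
  rw [le_div_iff₀ (by positivity)]
  have e : y * x ^ 2 = k := by rw [hx2]; exact div_mul_cancel₀ _ (by positivity)
  calc (exp y - 1) * mass (p + 1) semi 1 * x ^ 3
      = (exp y - 1) * x ^ 2 * (mass (p + 1) semi 1 * x) := by ring
    _ ≤ 1002 / 1000 * y * x ^ 2 * (1254 / 1000) :=
        mul_le_mul (mul_le_mul_of_nonneg_right hy (sq_nonneg x)) hx (by positivity) (by positivity)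
    _ ≤ _ := by rw [mul_assoc (1002 / 1000 : ℝ), e]; linarith

/-- The central bound from below. -/
theorem coreBound_ge (p : ℕ) (hp : 29 ≤ p) : 3256 / 1000000 / ((p : ℝ) + 1) ^ 2 ≤ coreBound p := by
  have hm : (30 : ℝ) ≤ (p : ℝ) + 1 := by
    have : (29 : ℝ) ≤ p := by exact_mod_cast hp
    linarith
  set τ := √(2 / ((p : ℝ) + 1)) with hτD
  have hτ2 : τ ^ 2 = 2 / ((p : ℝ) + 1) := sq_sqrt (by positivity)
  have hτ1 : τ ^ 2 ≤ 1 / 15 := by rw [hτ2, div_le_div_iff₀ (by positivity) (by norm_num)]; linarith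
  have hτ : τ ∈ Ioo (-1 : ℝ) 1 := by
    constructor <;> nlinarith [Real.sqrt_nonneg (2 / ((p : ℝ) + 1))]
  have hS : (354 / 1000 : ℝ) ≤ semi τ ^ p := by
    refine le_trans ?_ (semi_pow_exp' p hτ (c := τ ^ 2 + (τ ^ 2) ^ 2 * (15 / 28)) ?_)
    · refine le_trans ?_ (exp_le_exp.2 (show -(1 + 1 / 28 : ℝ) ≤ _ from neg_le_neg ?_))
      · rw [neg_add, Real.exp_add]
        refine le_trans ?_ (mul_le_mul (show (3678 / 10000 : ℝ) ≤ exp (-1) by
          linarith [Real.exp_neg_one_gt_d9]) (Real.add_one_le_exp _) (by norm_num) (exp_pos _).le)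
        norm_num
      · rw [hτ2]
        have h2 : 1 / ((p : ℝ) + 1) ≤ 1 / 30 := one_div_le_one_div_of_le (by norm_num) hm
        have e : (p : ℝ) / 2 * (2 / ((p : ℝ) + 1) + (2 / ((p : ℝ) + 1)) ^ 2 * (15 / 28)) =
            (1 - 1 / ((p : ℝ) + 1)) * (1 + 15 / 14 * (1 / ((p : ℝ) + 1))) := by field_simp; ring
        rw [e]
        nlinarith [show 0 ≤ 1 / ((p : ℝ) + 1) by positivity, sq_nonneg (1 / ((p : ℝ) + 1))]
    · refine add_le_add le_rfl ?_
      rw [div_le_iff₀ (by linarith)]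
      nlinarith [sq_nonneg (τ ^ 2)]
  rw [coreBound, ← hτD]
  calc 3256 / 1000000 / ((p : ℝ) + 1) ^ 2
      ≤ 354 / 1000 * (3 / 25) * (23 / 50) / 6 / ((p : ℝ) + 1) ^ 2 :=
        div_le_div_of_nonneg_right (by norm_num) (by positivity)
    _ = ((p : ℝ) + 1) * (354 / 1000) * (3 / 25 / ((p : ℝ) + 1) ^ 2) * (23 / 50 / ((p : ℝ) + 1)) / 6 := by
        field_simp
    _ ≤ _ := by gcongr

/-- The bump at `11/25` from below. -/
theorem bump_small_ge (p : ℕ) :
    632 / 100000000 * ((p : ℝ) + 1) * exp (-(1077 / 10000 * (p : ℝ))) ≤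
      bumpBound p (11 / 25) (1 / 1000) := by
  have hS : exp (-(1077 / 10000)) ≤ semi (11 / 25) := by
    rw [Real.exp_neg, inv_le_comm₀ (exp_pos _) (semi_pos (by norm_num))]
    refine le_trans (inv_anti₀ (by norm_num) (show (89799 / 100000 : ℝ) ≤ semi (11 / 25) by
      rw [semi, Real.le_sqrt' (by norm_num)]; norm_num)) ?_
    refine le_trans ?_ (Real.sum_le_exp_of_nonneg (by norm_num : (0 : ℝ) ≤ 1077 / 10000) 4)
    norm_num [Finset.sum_range_succ, Nat.factorial]
  have h1 := pow_le_pow_left₀ (exp_pos _).le hS p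
  rw [← Real.exp_nat_mul, show (p : ℝ) * -(1077 / 10000) = -(1077 / 10000 * (p : ℝ)) by ring] at h1
  have h2 : (3794 / 100000 : ℝ) ≤ √(2 * (1 / 1000) * semi (11 / 25) ^ 3) := by
    rw [Real.le_sqrt' (by norm_num)]
    have : (8979 / 10000 : ℝ) ≤ semi (11 / 25) := by
      rw [semi, Real.le_sqrt' (by norm_num)]; norm_num
    nlinarith [pow_le_pow_left₀ (by norm_num) this 3]
  rw [bumpBound]
  calc 632 / 100000000 * ((p : ℝ) + 1) * exp (-(1077 / 10000 * (p : ℝ)))
      ≤ ((p : ℝ) + 1) * exp (-(1077 / 10000 * (p : ℝ))) * (1 / 1000) * (3794 / 100000) / 6 := by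
        have : 0 ≤ ((p : ℝ) + 1) * exp (-(1077 / 10000 * (p : ℝ))) := by positivity
        linarith
    _ ≤ _ := by
        gcongr
        exact mul_nonneg (mul_nonneg (by positivity) (pow_nonneg (Real.sqrt_nonneg _) p)) (by norm_num)

/-- The bump at `(6 / m) ^ (1 / 4)` from below. -/
theorem bump_far_ge (p : ℕ) {x τ : ℝ} (hx : x ^ 2 = (p : ℝ) + 1) (hx0 : 0 < x) (hτ0 : 0 < τ)
    (hτ : τ ≤ 11 / 25) (h4 : x ^ 2 * τ ^ 4 = 6) :
    exp (-(12248 / 10000 * x + 187 / 100)) * (12 / 100) / x ^ 2 ≤ bumpBound p τ (bumpH τ) := by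
  have hτ2 : τ ^ 2 ≤ 121 / 625 := by nlinarith
  have hxt : x * τ ^ 2 ≤ 244950 / 100000 := by
    refine (pow_le_pow_iff_left₀ (by positivity) (by norm_num) two_ne_zero).1 ?_
    rw [mul_pow, show (τ ^ 2) ^ 2 = τ ^ 4 by ring, h4]; norm_num
  have hS : exp (-(12248 / 10000 * x + 187 / 100)) ≤ semi τ ^ p := by
    refine le_trans (exp_le_exp.2 (neg_le_neg ?_))
      (semi_pow_exp' p (c := τ ^ 2 + τ ^ 4 / (2 * (504 / 625))) ⟨by linarith, by linarith⟩ ?_)
    · refine (mul_le_mul_of_nonneg_right (show (p : ℝ) / 2 ≤ x ^ 2 / 2 by linarith) (by positivity)).trans ?_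
      have : x ^ 2 / 2 * (τ ^ 2 + τ ^ 4 / (2 * (504 / 625))) =
          x / 2 * (x * τ ^ 2) + x ^ 2 * τ ^ 4 * (625 / 2016) := by ring
      rw [this, h4]
      nlinarith [mul_le_mul_of_nonneg_left hxt (show 0 ≤ x / 2 by linarith)]
    · refine add_le_add le_rfl (div_le_div₀ (by positivity) (le_of_eq (by ring)) (by norm_num) ?_)
      linarith
  have hS3 : 18 / 25 ≤ semi τ ^ 3 := by
    have h1 : (897 / 1000 : ℝ) ≤ semi τ := by
      rw [semi, Real.le_sqrt' (by norm_num)]; linarith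
    refine le_trans ?_ (pow_le_pow_left₀ (by norm_num) h1 3)
    norm_num
  have hroot : 2 / 5 * τ ^ 3 ≤ √(2 * bumpH τ * semi τ ^ 3) := by
    refine Real.le_sqrt_of_sq_le ?_
    rw [bumpH]
    nlinarith [mul_le_mul_of_nonneg_left hS3 (pow_pos hτ0 5).le,
      mul_le_mul_of_nonneg_left hτ (pow_pos hτ0 5).le]
  rw [bumpBound, bumpH] at *
  rw [← hx]
  calc exp (-(12248 / 10000 * x + 187 / 100)) * (12 / 100) / x ^ 2
      = x ^ 2 * exp (-(12248 / 10000 * x + 187 / 100)) * (τ ^ 5 / 20) * (2 / 5 * τ ^ 3) / 6 := by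
        rw [div_eq_iff (by positivity)]
        linear_combination (-(exp (-(12248 / 10000 * x + 187 / 100))) / 300 * (x ^ 2 * τ ^ 4 + 6)) * h4
    _ ≤ _ := by
        gcongr
        exact mul_nonneg (mul_nonneg (sq_nonneg x) (pow_nonneg (Real.sqrt_nonneg _) p)) (by positivity)

/-- The threshold. -/
theorem threshold_le {x : ℝ} (hx : 547 / 100 ≤ x) : exp (-(5 / 4 * x)) / 5 ≤ 1 / 1000 := by
  have h := core_dim hx
  nlinarith [mul_le_mul_of_nonneg_right hx (show 0 ≤ exp (-(5 / 4 * x)) / 5 by positivity)]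

/-- Every dimension from thirty on: the bound for excess up to `exp (- 5 / 4 √m) / 5`. -/
theorem hasBound_tiny {p : ℕ} (hp : 29 ≤ p) {J k : ℝ}
    (hJ : J ≤ exp (k / ((p : ℝ) + 1)) * (2 * mass (p + 1) semi 1))
    (hk : k ≤ exp (-(5 / 4 * √((p : ℝ) + 1))) / 5) : HasBound p J := by
  refine ⟨wgt p, 0, 0, by unfold wgt; positivity, le_rfl, le_rfl, fun f hf hfJ hmix =>
    profileBound_tiny (by omega) hf hmix rfl rfl rfl fun hpos => ?_⟩
  rw [integral_even hf] at hfJ
  set x := √((p : ℝ) + 1) with hxD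
  have hx2 : x ^ 2 = (p : ℝ) + 1 := sq_sqrt (by positivity)
  have hm : (30 : ℝ) ≤ (p : ℝ) + 1 := by
    have : (29 : ℝ) ≤ p := by exact_mod_cast hp
    linarith
  have hx5 : 547 / 100 ≤ x := Real.le_sqrt_of_sq_le (by linarith)
  have hx0 : 0 < x := by linarith
  obtain ⟨hk0, hE⟩ := excess_le_k f (hk.trans (threshold_le hx5)) (hfJ ▸ hJ) hpos
  rw [← hxD] at hE
  have hc : excess p f < coreBound p := by
    refine hE.trans_lt (lt_of_lt_of_le ?_ (coreBound_ge p hp))
    rw [← hx2, ← pow_mul, div_lt_div_iff₀ (by positivity) (by positivity)]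
    nlinarith [core_dim hx5, mul_le_mul_of_nonneg_left hk hx0.le, pow_pos hx0 3]
  by_cases hA : excess p f < bumpBound p (11 / 25) (1 / 1000)
  · exact hyp_small hp hf hpos hc hA
  push Not at hA
  set τ := √(√6 / x) with hτD
  have hτ0 : 0 < τ := Real.sqrt_pos.2 (by positivity)
  have h4 : x ^ 2 * τ ^ 4 = 6 := by
    rw [show τ ^ 4 = (τ ^ 2) ^ 2 by ring, hτD, sq_sqrt (show (0 : ℝ) ≤ √6 / x by positivity), div_pow,
      sq_sqrt (show (0 : ℝ) ≤ 6 by norm_num)]
    field_simp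
  rcases lt_or_ge (11 / 25) τ with hτ | hτ
  · -- small dimensions
    exfalso
    have hx12 : x ≤ 1267 / 100 := by
      have h5 := pow_le_pow_left₀ (by norm_num) hτ.le 4
      have h6 := mul_le_mul_of_nonneg_left h5 (sq_nonneg x)
      rw [h4] at h6
      nlinarith
    have h7 := small_dim hx5 hx12
    have h8 := (bump_small_ge p).trans (hA.trans hE)
    rw [smallExp, Real.exp_sub, div_lt_iff₀ (exp_pos _)] at h7
    rw [le_div_iff₀ (by positivity), ← hx2, show (p : ℝ) = x ^ 2 - 1 by linarith, Real.exp_neg] at h8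
    rw [Real.exp_neg] at hk
    have hA0 := exp_pos (1077 / 10000 * (x ^ 2 - 1))
    have hB0 := exp_pos (5 / 4 * x)
    set A := exp (1077 / 10000 * (x ^ 2 - 1))
    set B := exp (5 / 4 * x)
    have h9 : k * B ≤ 1 / 5 := by
      have := mul_le_mul_of_nonneg_right hk hB0.le
      rwa [div_mul_eq_mul_div, inv_mul_cancel₀ hB0.ne'] at this
    have h10 : 632 / 100000000 * x ^ 5 ≤ 126 / 100 * k * A := by
      have := mul_le_mul_of_nonneg_right h8 hA0.le
      field_simp at this ⊢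
      linarith
    nlinarith [mul_le_mul_of_nonneg_right h10 hB0.le, mul_le_mul_of_nonneg_left h9 hA0.le]
  · -- large dimensions
    have hx12 : 1264 / 100 ≤ x := by
      have h5 := pow_le_pow_left₀ hτ0.le hτ 4
      have h6 := mul_le_mul_of_nonneg_left h5 (sq_nonneg x)
      rw [h4] at h6
      nlinarith
    have hfar : excess p f < bumpBound p τ (bumpH τ) := by
      refine hE.trans_lt (lt_of_lt_of_le ?_ (bump_far_ge p hx2 hx0 hτ0 hτ h4))
      have h7 := mul_lt_mul_of_pos_left (hk.trans_lt (large_dim hx12)) (show (0:ℝ) < 126 / 100 by norm_num)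
      rw [div_lt_div_iff₀ (by positivity) (by positivity)]
      have h8 := mul_lt_mul_of_pos_right h7 (pow_pos hx0 2)
      nlinarith [mul_pos (exp_pos (-(12248 / 10000 * x + 187 / 100))) (pow_pos hx0 3)]
    have hend : bumpBound p (11 / 25) (bumpH (11 / 25)) ≤ excess p f :=
      (bumpBound_mono p _ (by norm_num [bumpH]) (by norm_num [bumpH])).trans hA
    have hcont : ContinuousOn (fun T => bumpBound p T (bumpH T)) (Icc τ (11 / 25)) := by
      unfold bumpBound bumpH semi; fun_prop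
    obtain ⟨T, hT, hTeq⟩ := intermediate_value_Icc' hτ hcont ⟨hend, hfar.le⟩
    have hT0 : 0 < T := hτ0.trans_le hT.1
    refine hyp_point hp hf hT0 hT.2 ?_ hc hTeq.le fun h hh => ?_
    · rw [← hx2, ← h4]
      exact mul_le_mul_of_nonneg_left (pow_le_pow_left₀ hτ0.le hT.1 4) (sq_nonneg x)
    · rw [← hTeq]
      exact bumpBound_lt p ⟨by linarith, by linarith [hT.2]⟩ (by rw [bumpH]; positivity) hh

end Vale.Agent.P237.All.Transport.Tiny
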