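import Vale.Agent.P237.All.Tiny.MidCheck

/-!
P237, dimensions four to twenty-nine: the bound for small excess, by the rational check
(`notes/P237h8/tiny-k-02Dec.md`).
-/

noncomputable section

namespace Vale.Agent.P237.All.Transport.Tiny

/-- The thresholds: `.02` up to dimension nineteen, `.017` up to twenty-four, `.013` up to twenty-nine. -/
def smallK (p : ℕ) : ℚ := if p ≤ 18 then 1 / 50 else if p ≤ 23 then 17 / 1000 else 13 / 1000

/-- Middle cells and rows (end, chord start, sum end) for the dimensions up to the first entry. -/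
def smallData : List (ℕ × ℕ × List (ℕ × ℕ × ℕ)) :=
  [(3, 38, [(84, 52, 76), (92, 37, 66), (100, 37, 55)]),
    (4, 36, [(77, 37, 71), (85, 37, 75), (93, 37, 62), (100, 37, 50)]),
    (6, 34, [(73, 37, 68), (81, 38, 73), (89, 37, 62), (97, 37, 52), (100, 37, 46)]),
    (9, 32, [(69, 45, 64), (77, 53, 69), (85, 37, 60), (93, 37, 52), (100, 37, 47)]),
    (13, 29, [(61, 37, 57), (66, 48, 61), (74, 40, 66), (82, 37, 58), (90, 37, 51), (98, 37, 49),
      (100, 37, 45)]),
    (18, 27, [(57, 37, 51), (60, 37, 49), (65, 37, 58), (73, 40, 65), (81, 37, 56), (89, 37, 51),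
      (97, 37, 51), (100, 37, 46)]),
    (23, 26, [(55, 37, 50), (58, 37, 47), (63, 37, 57), (68, 37, 51), (76, 37, 59), (84, 37, 53),
      (92, 37, 52), (100, 37, 52)]),
    (28, 25, [(53, 37, 49), (56, 37, 46), (61, 38, 56), (66, 37, 51), (74, 37, 63), (82, 37, 54),
      (90, 37, 52), (98, 37, 53), (100, 37, 45)])]

/-- The check at `p = i + 3`. -/
def smallRow (i : ℕ) : Bool :=
  match smallData.find? fun d => decide (i + 3 ≤ d.1) with
  | some d => midCheck (i + 3) (smallK (i + 3)) d.2.1 d.2.2
  | none => false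

theorem smallRows_ok : (List.range 26).all smallRow = true := by decide +kernel

/-- Dimensions four to twenty-nine: the bound for excess up to `smallK p`. -/
theorem hasBound_small {p : ℕ} (hp : 3 ≤ p) (hp' : p ≤ 28) {J k : ℝ}
    (hJ : J ≤ Real.exp (k / ((p : ℝ) + 1)) * (2 * mass (p + 1) semi 1))
    (hk : k ≤ (smallK p : ℝ)) : HasBound p J := by
  have h := List.all_eq_true.1 smallRows_ok (p - 3) (List.mem_range.2 (by omega))
  rw [smallRow, show p - 3 + 3 = p by omega] at h
  split at h
  · exact hasBound_of_midCheck h hJ hk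
  · exact absurd h Bool.false_ne_true

end Vale.Agent.P237.All.Transport.Tiny
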