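import Vale.Agent.P237.All.Tiny.Main

/-!
P237, every dimension, tiny excess: the gap between the threshold and the semicircle, and the bound
on `f` it gives from a small excess (`notes/P237h8/tiny-k-02Dec.md`).
-/

noncomputable section

open MeasureTheory Set Real intervalIntegral

namespace Vale.Agent.P237.All.Transport.Tiny

variable {f : ℝ → ℝ}

/-- The cubic at the centre `1 - z / 2`, `z = 1 / (p + 1)`. -/
theorem cubic_centre {z : ℝ} (hz0 : 0 ≤ z) (hz : z ≤ 1 / 30) :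
    (27 / 200) * z ^ 2 ≤ 1 - z / 2 + 29 / 50 * z ^ 2 -
      (3 / 2 + z ^ 2 / 16) * (1 - z / 2) + (1 + z) * (1 - z / 2) ^ 3 / 2 := by
  nlinarith [pow_nonneg hz0 3, mul_nonneg (pow_nonneg hz0 3) (sub_nonneg.2 hz), mul_nonneg (sq_nonneg z) (sub_nonneg.2 hz)]

/-- The cubic off the centre. -/
theorem cubic_gap {z s : ℝ} (hz0 : 0 ≤ z) (hz : z ≤ 1 / 30) (hs : 0 ≤ s) :
    127 / 1000 * z ^ 2 + 9 / 10 * (1 - z / 2 - s) ^ 2 ≤ 1 - z / 2 + 29 / 50 * z ^ 2 -
      (3 / 2 + z ^ 2 / 16) * s + (1 + z) * s ^ 3 / 2 := by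
  have h0 := cubic_centre hz0 hz
  obtain ⟨e, rfl⟩ : ∃ e, s = 1 - z / 2 + e := ⟨s - (1 - z / 2), by ring⟩
  have hq : (1 + z) * (1 - z / 2) * e ^ 2 ≤
      (1 + z) * (3 / 2 * (1 - z / 2) + e / 2) * e ^ 2 :=
    mul_le_mul_of_nonneg_right (mul_le_mul_of_nonneg_left (by linarith) (by linarith)) (sq_nonneg e)
  have hq' : (19 / 20) * e ^ 2 ≤ (1 + z) * (1 - z / 2) * e ^ 2 :=
    mul_le_mul_of_nonneg_right (by nlinarith) (sq_nonneg e)
  -- the linear term
  have hlin : -((1 / 20) * e ^ 2 + 36 / 5 * (z ^ 2) ^ 2) ≤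
      (3 / 2 * (1 + z) * (1 - z / 2) ^ 2 - 3 / 2 - z ^ 2 / 16) * e := by
    have hc : (3 / 2 * (1 + z) * (1 - z / 2) ^ 2 - 3 / 2 - z ^ 2 / 16) ^ 2 ≤ (6 / 5 * z ^ 2) ^ 2 := by
      rw [sq_le_sq, abs_of_nonneg (show (0 : ℝ) ≤ 6 / 5 * z ^ 2 by positivity), abs_le]
      constructor <;> nlinarith [pow_nonneg hz0 3, mul_nonneg (sq_nonneg z) (sub_nonneg.2 hz)]
    nlinarith [sq_nonneg (e + 10 * (3 / 2 * (1 + z) * (1 - z / 2) ^ 2 - 3 / 2 - z ^ 2 / 16))]
  have hz4 : 36 / 5 * (z ^ 2) ^ 2 ≤ 1 / 125 * z ^ 2 := by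
    nlinarith [mul_le_mul_of_nonneg_left (pow_le_pow_left₀ hz0 hz 2) (sq_nonneg z)]
  linarith

/-- The threshold clears the semicircle. -/
theorem gap_ge (p : ℕ) (hp : 29 ≤ p) {t : ℝ} (ht : t ∈ Icc (-1 : ℝ) 1) :
    127 / 1000 / ((p : ℝ) + 1) ^ 2 + 9 / 10 * (1 - 1 / (2 * ((p : ℝ) + 1)) - semi t) ^ 2 ≤
      cr p - semi t * den p t := by
  have hp' : (29 : ℝ) ≤ p := by exact_mod_cast hp
  have hc := crLow_le p hp
  rw [crLow] at hc
  have hd : den p t = 3 / 2 + mu p - (1 + 1 / ((p : ℝ) + 1)) * semi t ^ 2 / 2 := by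
    rw [den, semi_sq ht, mu]; field_simp; ring
  have h := cubic_gap (z := 1 / ((p : ℝ) + 1)) (s := semi t) (by positivity)
    (by rw [div_le_div_iff₀ (by positivity) (by norm_num)]; linarith) (Real.sqrt_nonneg _)
  have e1 : 1 / (2 * ((p : ℝ) + 1)) = 1 / ((p : ℝ) + 1) / 2 := by rw [div_div, mul_comm]
  have e2 : 127 / 1000 / ((p : ℝ) + 1) ^ 2 = 127 / 1000 * (1 / ((p : ℝ) + 1)) ^ 2 := by
    rw [div_pow, one_pow, mul_one_div]
  have e3 : 29 / 50 / ((p : ℝ) + 1) ^ 2 = 29 / 50 * (1 / ((p : ℝ) + 1)) ^ 2 := by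
    rw [div_pow, one_pow, mul_one_div]
  have e4 : mu p = (1 / ((p : ℝ) + 1)) ^ 2 / 16 := by rw [mu]; field_simp
  rw [e1, e3] at hc
  rw [hd, e1, e2, e4]
  linarith

/-- An excess below the cost of a bump keeps `f` below it. -/
theorem lt_of_excess (p : ℕ) (hf : IsProfile f) {t w h τ : ℝ} (hw : 0 < w) (hh : 0 ≤ h) (hτ : τ < 1)
    (ht : |t| ≤ τ) (ht' : |t - w| ≤ τ) (hw2 : w ^ 2 ≤ 2 * h * semi τ ^ 3)
    (hex : excess p f < ((p : ℝ) + 1) * semi τ ^ p * h * w / 6) : f t < semi t + h := by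
  by_contra hc
  push Not at hc
  have h1 := excess_lower p hf hw hh hτ ht ht' hw2 hc
  have hn1 : (-1 : ℝ) ∈ Icc (-1 : ℝ) 1 := by norm_num
  have h01 : (1 : ℝ) ∈ Icc (-1 : ℝ) 1 := by norm_num
  have hi := (int_pow hf (p + 1) hn1 h01).sub (int_pow isProfile_semi (p + 1) hn1 h01)
  have ha := abs_le.1 ht
  have hb := abs_le.1 ht'
  have h2 : ∫ u in (t - w)..t, (f u ^ (p + 1) - semi u ^ (p + 1)) ≤
      ∫ u in (-1 : ℝ)..1, (f u ^ (p + 1) - semi u ^ (p + 1)) := by
    refine intervalIntegral.integral_mono_interval (by linarith) (by linarith) (by linarith) ?_ hi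
    refine (ae_restrict_iff' measurableSet_Ioc).2 ?_
    filter_upwards [compl_mem_ae_iff.2 (measure_singleton (1 : ℝ))] with u h1u hu
    have hu' : u ∈ Ioo (-1 : ℝ) 1 := ⟨hu.1, lt_of_le_of_ne hu.2 h1u⟩
    exact sub_nonneg.2 (pow_le_pow_left₀ (Real.sqrt_nonneg _) (hf.2.2 u hu') _)
  rw [intervalIntegral.integral_sub (int_pow hf _ hn1 h01) (int_pow isProfile_semi _ hn1 h01),
    integral_even hf (p + 1), integral_even isProfile_semi (p + 1)] at h2
  rw [excess] at hex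
  linarith

/-- `semi ^ p` from Bernoulli. -/
theorem semi_pow_ge (p : ℕ) {t : ℝ} (ht : t ^ 2 ≤ 1) : 1 - (p : ℝ) * t ^ 2 ≤ (semi t ^ p) ^ 2 := by
  rw [← pow_mul, mul_comm p 2, pow_mul, semi, sq_sqrt (sub_nonneg.2 ht)]
  have := one_add_mul_le_pow (a := -t ^ 2) (by linarith) p
  rw [← sub_eq_add_neg] at this
  linarith

/-- The bound near the centre. -/
def coreBound (p : ℕ) : ℝ :=
  ((p : ℝ) + 1) * semi (√(2 / ((p : ℝ) + 1))) ^ p * (3 / 25 / ((p : ℝ) + 1) ^ 2) *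
    (23 / 50 / ((p : ℝ) + 1)) / 6

/-- The bound at `t`, with the bump `h`. -/
def bumpBound (p : ℕ) (t h : ℝ) : ℝ :=
  ((p : ℝ) + 1) * semi t ^ p * h * √(2 * h * semi t ^ 3) / 6

theorem core_le {p : ℕ} (hp : 29 ≤ p) (hf : IsProfile f) {t : ℝ} (ht0 : 0 ≤ t)
    (ht : t ^ 2 ≤ 2 / ((p : ℝ) + 1)) (hex : excess p f < coreBound p) : f t * den p t ≤ cr p := by
  have hm : (30 : ℝ) ≤ (p : ℝ) + 1 := by
    have : (29 : ℝ) ≤ p := by exact_mod_cast hp
    linarith
  set m : ℝ := (p : ℝ) + 1 with hmD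
  have hm0 : 0 < m := by linarith
  set τ := √(2 / m) with hτD
  have hτ2 : τ ^ 2 = 2 / m := sq_sqrt (by positivity)
  have h2m : 2 / m ≤ 1 / 15 := by rw [div_le_div_iff₀ hm0 (by norm_num)]; linarith
  have hτ0 : 0 ≤ τ := Real.sqrt_nonneg _
  have hτ1 : τ < 1 := by nlinarith
  have htτ : t ≤ τ := (pow_le_pow_iff_left₀ ht0 hτ0 two_ne_zero).1 (by rw [hτ2]; exact ht)
  have hw : 0 < 23 / 50 / m := by positivity
  have hwτ : 23 / 50 / m ≤ τ := by
    refine (pow_le_pow_iff_left₀ hw.le hτ0 two_ne_zero).1 ?_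
    rw [hτ2, div_pow, div_le_div_iff₀ (by positivity) hm0]
    nlinarith
  have hS : (9 / 10 : ℝ) ≤ semi τ ^ 3 := by
    have h1 : (14 / 15 : ℝ) ≤ semi τ ^ 2 := by
      rw [semi_sq ⟨by linarith, hτ1.le⟩, hτ2]; linarith
    have h2 : (27 / 28 : ℝ) ≤ semi τ :=
      (pow_le_pow_iff_left₀ (by norm_num) (Real.sqrt_nonneg _) two_ne_zero).1 (le_trans (by norm_num) h1)
    calc (9 / 10 : ℝ) ≤ 14 / 15 * (27 / 28) := by norm_num
      _ ≤ semi τ ^ 2 * semi τ := mul_le_mul h1 h2 (by norm_num) (by positivity)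
      _ = _ := by ring
  have hlt := lt_of_excess p hf (t := t) (h := 3 / 25 / m ^ 2) hw (by positivity) hτ1
    (abs_le.2 ⟨by linarith, htτ⟩) (abs_le.2 ⟨by linarith, by linarith⟩) ?_ hex
  · have hg := gap_ge p hp (t := t) ⟨by linarith, by linarith⟩
    rw [← hmD] at hg
    have hden : den p t ≤ 21 / 20 := by
      rw [den, mu, ← hmD]
      have h1 : 1 / (16 * m ^ 2) ≤ 1 / (2 * m) := by
        rw [div_le_div_iff₀ (by positivity) (by positivity)]; nlinarith
      have h2 : (1 + 1 / m) * t ^ 2 ≤ 31 / 30 * (1 / 15) :=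
        mul_le_mul (by rw [add_comm, ← le_sub_iff_add_le, div_le_iff₀ hm0]; linarith) (ht.trans h2m)
          (sq_nonneg t) (by norm_num)
      linarith
    have hd0 : 0 < den p t := by
      rw [den, ← hmD]
      have : 1 / (2 * m) ≤ 1 / 2 := by rw [div_le_div_iff₀ (by positivity) (by norm_num)]; linarith
      have : 0 ≤ (1 + 1 / m) * t ^ 2 / 2 := by positivity
      have := mu_pos p
      linarith
    have h1 := mul_le_mul_of_nonneg_right hlt.le hd0.le
    have h2 := mul_le_mul_of_nonneg_left hden (show 0 ≤ 3 / 25 / m ^ 2 by positivity)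
    have h3 : 3 / 25 / m ^ 2 * (21 / 20) ≤ 127 / 1000 / m ^ 2 := by
      rw [div_mul_eq_mul_div]; exact div_le_div_of_nonneg_right (by norm_num) (by positivity)
    have h4 : 0 ≤ 9 / 10 * (1 - 1 / (2 * m) - semi t) ^ 2 := by positivity
    linarith
  · have : (23 / 50 / m) ^ 2 = (529 / 2500) / m ^ 2 := by ring_nf
    rw [this, show 2 * (3 / 25 / m ^ 2) * semi τ ^ 3 = (6 / 25 * semi τ ^ 3) / m ^ 2 by ring]
    exact div_le_div_of_nonneg_right (by linarith) (by positivity)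

/-- Away from the centre, with the bump `t ^ 4 / 28`. -/
theorem outer_le {p : ℕ} (hp : 29 ≤ p) (hf : IsProfile f) {t : ℝ}
    (ht : t ∈ Ioo (0 : ℝ) 1) (ht2 : 2 / ((p : ℝ) + 1) ≤ t ^ 2)
    (hex : excess p f < bumpBound p t (t ^ 4 / 28)) : f t * den p t ≤ cr p := by
  have hs := semi_pos (t := t) ⟨by linarith [ht.1], ht.2⟩
  have hS1 : semi t ≤ 1 := Real.sqrt_le_one.2 (by linarith [sq_nonneg t])
  set w := √(2 * (t ^ 4 / 28) * semi t ^ 3) with hwD
  have h4 : 0 < t ^ 4 := pow_pos ht.1 4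
  have hw : 0 < w := Real.sqrt_pos.2 (by positivity)
  have hwt : w ≤ t := by
    rw [hwD, Real.sqrt_le_left ht.1.le]
    nlinarith [pow_le_one₀ hs.le hS1 (n := 3), mul_le_mul_of_nonneg_left
      (pow_le_one₀ (n := 2) ht.1.le ht.2.le) (sq_nonneg t), pow_nonneg hs.le 3]
  have hlt := lt_of_excess p hf (t := t) (h := t ^ 4 / 28) hw (by positivity) ht.2
    (abs_le.2 ⟨by linarith [ht.1], le_rfl⟩) (abs_le.2 ⟨by linarith, by linarith⟩)
    (by rw [hwD, sq_sqrt (by positivity)]) (by simpa [bumpBound] using hex)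
  have hg := gap_ge p hp (t := t) ⟨by linarith [ht.1], ht.2.le⟩
  set m : ℝ := (p : ℝ) + 1 with hm
  have hm0 : 0 < m := by positivity
  have hkey : t ^ 2 / 4 ≤ 1 - 1 / (2 * m) - semi t := by
    have h1 : semi t ≤ 1 - t ^ 2 / 2 := by
      rw [semi, Real.sqrt_le_left (by nlinarith [ht.1, ht.2])]
      nlinarith [sq_nonneg (t ^ 2)]
    have h2 : 1 / (2 * m) = 2 / m / 4 := by field_simp; ring
    linarith
  have hden : den p t ≤ 38 / 25 := by
    refine (den_le p ⟨by linarith [ht.1], ht.2.le⟩).trans ?_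
    have : mu p ≤ 1 / 50 := by
      have : (29 : ℝ) ≤ p := by exact_mod_cast hp
      rw [mu, div_le_div_iff₀ (by positivity) (by norm_num)]
      nlinarith
    linarith
  have hd0 : 0 < den p t := by
    rw [den, ← hm]
    have : 1 / (2 * m) ≤ 1 / 2 := by
      rw [div_le_div_iff₀ (by positivity) (by norm_num)]; linarith [(Nat.cast_nonneg p : (0 : ℝ) ≤ p)]
    have : 0 ≤ (1 + 1 / m) * t ^ 2 / 2 := by positivity
    have := mu_pos p
    linarith
  have h1 := mul_le_mul_of_nonneg_right hlt.le hd0.le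
  have h2 := mul_le_mul_of_nonneg_left hden (show 0 ≤ t ^ 4 / 28 by positivity)
  have h3 := pow_le_pow_left₀ (show 0 ≤ t ^ 2 / 4 by positivity) hkey 2
  have h5 : 0 ≤ 127 / 1000 / m ^ 2 := by positivity
  linarith

/-- The bound between two points is at least the bound at the ends. -/
theorem bump_between (p : ℕ) {a b t : ℝ} (ha : 0 < a) (hb : b < 1) (ht : t ∈ Icc a b) :
    min (bumpBound p a (a ^ 4 / 28)) (bumpBound p b (b ^ 4 / 28)) ≤ bumpBound p t (t ^ 4 / 28) := by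
  set q : ℝ := (p : ℝ) + 3 / 2
  set φ : ℝ → ℝ := fun u => q / 2 * log (1 - u ^ 2) + 6 * log u with hφ
  have hpos : ∀ u ∈ Icc a b, 0 < u ∧ 0 < 1 - u ^ 2 := fun u hu =>
    ⟨ha.trans_le hu.1, by nlinarith [hu.1, hu.2]⟩
  have hval : ∀ u ∈ Icc a b, bumpBound p u (u ^ 4 / 28) =
      ((p : ℝ) + 1) / 6 * (1 / 28 * √(1 / 14)) * exp (φ u) := by
    intro u hu
    obtain ⟨h0, h1⟩ := hpos u hu
    have hsu : 0 < semi u := Real.sqrt_pos.2 h1
    have e1 : √(2 * (u ^ 4 / 28) * semi u ^ 3) = √(1 / 14) * u ^ 2 * √(semi u ^ 3) := by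
      rw [show 2 * (u ^ 4 / 28) * semi u ^ 3 = 1 / 14 * (u ^ 2) ^ 2 * semi u ^ 3 by ring,
        Real.sqrt_mul (by positivity), Real.sqrt_mul (by norm_num), Real.sqrt_sq (sq_nonneg u)]
    have e2 : exp (φ u) = semi u ^ p * √(semi u ^ 3) * u ^ 6 := by
      rw [← Real.exp_log (show 0 < semi u ^ p * √(semi u ^ 3) * u ^ 6 by positivity),
        Real.log_mul (by positivity) (pow_ne_zero _ h0.ne'), Real.log_mul (by positivity) (by positivity),
        Real.log_sqrt (pow_nonneg hsu.le 3), Real.log_pow, Real.log_pow, Real.log_pow, hφ]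
      simp only [semi, Real.log_sqrt h1.le, q]
      push_cast
      congr 1
      ring
    rw [bumpBound, e1, e2]
    ring
  have hconc : ConcaveOn ℝ (Icc a b) φ := by
    refine AntitoneOn.concaveOn_of_deriv (convex_Icc _ _) ?_ ?_ ?_
    · refine (continuousOn_const.mul (ContinuousOn.log (by fun_prop) fun u hu => (hpos u hu).2.ne')).add
        (continuousOn_const.mul (continuousOn_id.log fun u hu => (hpos u hu).1.ne'))
    · intro u hu
      obtain ⟨h0, h1⟩ := hpos u (interior_subset hu)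
      exact (((differentiableAt_const _).mul ((by fun_prop : DifferentiableAt ℝ (fun u : ℝ => 1 - u ^ 2) u).log
        h1.ne')).add ((differentiableAt_const _).mul (differentiableAt_id.log h0.ne'))).differentiableWithinAt
    · intro u hu v hv huv
      have hd : ∀ x ∈ interior (Icc a b), deriv φ x = -(q * x / (1 - x ^ 2)) + 6 / x := by
        intro x hx
        obtain ⟨h0, h1⟩ := hpos x (interior_subset hx)
        refine HasDerivAt.deriv ?_
        have h := ((((hasDerivAt_id x).pow 2).const_sub 1).log h1.ne').const_mul (q / 2) |>.add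
          ((Real.hasDerivAt_log h0.ne').const_mul 6)
        refine h.congr_deriv ?_
        simp only [Pi.pow_apply, id_eq, Nat.cast_ofNat, mul_one]
        field_simp
        ring
      rw [hd u hu, hd v hv]
      obtain ⟨hu0, hu1⟩ := hpos u (interior_subset hu)
      obtain ⟨hv0, hv1⟩ := hpos v (interior_subset hv)
      have hq : 0 ≤ q := by positivity
      refine add_le_add (neg_le_neg ?_) (div_le_div_of_nonneg_left (by norm_num) hu0 huv)
      exact div_le_div₀ (by positivity) (mul_le_mul_of_nonneg_left huv hq) hv1 (by nlinarith)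
  have hmin : min (φ a) (φ b) ≤ φ t := hconc.ge_on_segment (left_mem_Icc.2 (ht.1.trans ht.2))
    (right_mem_Icc.2 (ht.1.trans ht.2)) (by rw [segment_eq_Icc (ht.1.trans ht.2)]; exact ht)
  rw [hval a (left_mem_Icc.2 (ht.1.trans ht.2)), hval b (right_mem_Icc.2 (ht.1.trans ht.2)), hval t ht]
  rcases min_le_iff.1 hmin with h | h
  · exact min_le_of_left_le (mul_le_mul_of_nonneg_left (exp_le_exp.2 h) (by positivity))
  · exact min_le_of_right_le (mul_le_mul_of_nonneg_left (exp_le_exp.2 h) (by positivity))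

end Vale.Agent.P237.All.Transport.Tiny
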