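import Vale.Agent.P237.All.Tiny.Tools
import Vale.Agent.P237.All.Bounds

/-!
P237, every dimension, tiny excess: the profile bound from a threshold on a central interval and a
small tail (`notes/P237h8/tiny-k-02Dec.md`).
-/

noncomputable section

open MeasureTheory Set Real intervalIntegral

namespace Vale.Agent.P237.All.Transport.Tiny

variable {f : ℝ → ℝ}

/-- The excess of the profile on half the axis. -/
def excess (p : ℕ) (f : ℝ → ℝ) : ℝ := mass (p + 1) f 1 - mass (p + 1) semi 1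

theorem excess_nonneg' (p : ℕ) (hf : IsProfile f) : 0 ≤ excess p f := by
  have h0 : (0 : ℝ) ∈ Icc (-1 : ℝ) 1 := by norm_num
  have h1 : (1 : ℝ) ∈ Icc (-1 : ℝ) 1 := by norm_num
  exact sub_nonneg.2 (intervalIntegral.integral_mono_on_of_le_Ioo zero_le_one
    (int_pow isProfile_semi _ h0 h1) (int_pow hf _ h0 h1) fun t ht =>
      pow_le_pow_left₀ (Real.sqrt_nonneg _) (hf.2.2 t ⟨by linarith [ht.1], ht.2⟩) _)

/-- Without excess the profile is the semicircle. -/
theorem profileBound_of_eq {p : ℕ} (hp : 1 ≤ p) (hf : IsProfile f) (h : excess p f ≤ 0) :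
    ProfileBound (p + 1) f := by
  have he := eq_semi_of_integral hf (by omega : 1 ≤ p + 1) (sub_nonpos.1 h)
  have hI : ∀ q : ℕ, (∫ t in (-1 : ℝ)..1, f t ^ q) = ∫ t in (-1 : ℝ)..1, semi t ^ q := by
    intro q
    refine intervalIntegral.integral_congr_ae ?_
    filter_upwards [compl_mem_ae_iff.2 (measure_singleton (1 : ℝ))] with t h1 ht
    rw [uIoc_of_le (by norm_num : (-1 : ℝ) ≤ 1)] at ht
    rw [he t ⟨ht.1, lt_of_le_of_ne ht.2 h1⟩]
  rw [ProfileBound, hI, hI]
  exact ⟨le_rfl, fun _ => he⟩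

/-- Failure of the profile bound, linearised. -/
theorem linear_of_fail {p : ℕ} (hp : 1 ≤ p) (hf : IsProfile f)
    (hfail : (2 * mass p f 1) ^ (p + 1) * (2 * mass (p + 1) semi 1) ^ p ≤
      (2 * mass p semi 1) ^ (p + 1) * (2 * mass (p + 1) f 1) ^ p) :
    cr p * (((p : ℝ) + 1) / p) * (mass p f 1 - mass p semi 1) ≤ excess p f := by
  have hP' := mass_one_pos isProfile_semi p
  have hP := mass_one_pos isProfile_semi (p + 1)
  have hF' := mass_one_pos hf p
  have hF := mass_one_pos hf (p + 1)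
  have hp0 : (0 : ℝ) < p := Nat.cast_pos.2 (by omega)
  rw [cr, excess]
  set P' := mass p semi 1
  set P := mass (p + 1) semi 1
  set F' := mass p f 1
  set F := mass (p + 1) f 1
  have hx : (F' / P') ^ (p + 1) ≤ (F / P) ^ p := by
    rw [div_pow, div_pow, div_le_div_iff₀ (by positivity) (by positivity)]
    simp only [mul_pow] at hfail
    have h2 : (2 : ℝ) ^ (p + 1) * 2 ^ p * (F' ^ (p + 1) * P ^ p) ≤
        2 ^ (p + 1) * 2 ^ p * (P' ^ (p + 1) * F ^ p) := by linarith
    linarith [le_of_mul_le_mul_left h2 (by positivity)]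
  have hq : F' / P' ≤ (F / P) ^ ((p : ℝ) / ((p : ℝ) + 1)) := by
    refine (pow_le_pow_iff_left₀ (by positivity) (by positivity) (by omega : p + 1 ≠ 0)).1 ?_
    refine hx.trans (le_of_eq ?_)
    rw [← Real.rpow_natCast ((F / P) ^ ((p : ℝ) / ((p : ℝ) + 1))), ← Real.rpow_mul (by positivity)]
    push_cast
    rw [div_mul_cancel₀ _ (by positivity), Real.rpow_natCast]
  have hb := rpow_one_add_le_one_add_mul_self (s := F / P - 1)
    (by linarith [div_nonneg hF.le hP.le]) (p := (p : ℝ) / ((p : ℝ) + 1)) (by positivity)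
    (by rw [div_le_one (by positivity)]; linarith)
  rw [add_sub_cancel] at hb
  have h := mul_le_mul_of_nonneg_left (sub_le_sub_right (hq.trans hb) 1)
    (show 0 ≤ P * (((p : ℝ) + 1) / p) by positivity)
  have e1 : P * (((p : ℝ) + 1) / p) * (F' / P' - 1) = P / P' * (((p : ℝ) + 1) / p) * (F' - P') := by
    field_simp
  have e2 : P * (((p : ℝ) + 1) / p) * (1 + (p : ℝ) / ((p : ℝ) + 1) * (F / P - 1) - 1) = F - P := by
    field_simp
    ring
  linarith

/-- A profile failing the bound has a nonnegative average integrand. -/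
theorem gam_integral_of_fail {p : ℕ} (hp : 1 ≤ p) {a g d : ℝ → ℝ} (hf : IsProfile f)
    (hmix : MixedTest (p + 1) a g d f) (ha : a (∫ t in (-1 : ℝ)..1, f t ^ (p + 1)) = wgt p)
    (hg : g (∫ t in (-1 : ℝ)..1, f t ^ (p + 1)) = 0) (hd : d (∫ t in (-1 : ℝ)..1, f t ^ (p + 1)) = 0)
    (hfail : (2 * mass p f 1) ^ (p + 1) * (2 * mass (p + 1) semi 1) ^ p ≤
      (2 * mass p semi 1) ^ (p + 1) * (2 * mass (p + 1) f 1) ^ p) :
    IntervalIntegrable (fun t => gam p t (f t)) volume 0 1 ∧ 0 ≤ ∫ t in (0 : ℝ)..1, gam p t (f t) := by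
  have hs := isProfile_semi
  have hlin := linear_of_fail hp hf hfail
  have hn1 : (-1 : ℝ) ∈ Icc (-1 : ℝ) 1 := by norm_num
  have h00 : (0 : ℝ) ∈ Icc (-1 : ℝ) 1 := by norm_num
  have h01 : (1 : ℝ) ∈ Icc (-1 : ℝ) 1 := by norm_num
  -- the variance
  have hvar : 0 ≤ varTerm (p + 1) f := by
    have h := hmix (fun _ => 0) (fun _ => 0) (fun t => hasDerivAt_const t 0) continuous_const
    rw [ha, hg, hd, zero_mul, zero_mul, add_zero, sub_zero] at h
    exact nonneg_of_mul_nonneg_right h (by unfold wgt; positivity)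
  have i1 := int_pow hf (p + 1) hn1 h01
  have i2 : IntervalIntegrable (fun t => t ^ 2 * f t ^ (p + 1)) volume (-1) 1 :=
    i1.continuousOn_mul (by fun_prop)
  have he2 : ∫ t in (-1 : ℝ)..1, t ^ 2 * f t ^ (p + 1) = 2 * ∫ t in (0 : ℝ)..1, t ^ 2 * f t ^ (p + 1) :=
    integral_of_even i2 fun t ht => by rw [hf.2.1 t ht, neg_sq]
  have j : ∀ q : ℕ, IntervalIntegrable (fun t => f t ^ q - semi t ^ q) volume 0 1 := fun q =>
    (int_pow hf q h00 h01).sub (int_pow hs q h00 h01)
  have jt : IntervalIntegrable (fun t => t ^ 2 * (f t ^ (p + 1) - semi t ^ (p + 1))) volume 0 1 :=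
    (j (p + 1)).continuousOn_mul (by fun_prop)
  have k1 : IntervalIntegrable (fun t => t ^ 2 * f t ^ (p + 1)) volume 0 1 :=
    (int_pow hf (p + 1) h00 h01).continuousOn_mul (by fun_prop)
  have k2 : IntervalIntegrable (fun t => t ^ 2 * semi t ^ (p + 1)) volume 0 1 :=
    (int_pow hs (p + 1) h00 h01).continuousOn_mul (by fun_prop)
  have eint : ∫ t in (0 : ℝ)..1, gam p t (f t) = excess p f +
      wgt p * (((p : ℝ) + 3) * (∫ t in (0 : ℝ)..1, t ^ 2 * (f t ^ (p + 1) - semi t ^ (p + 1))) -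
        ∫ t in (0 : ℝ)..1, (f t ^ (p + 3) - semi t ^ (p + 3))) -
      cr p * (((p : ℝ) + 1) / p) * (mass p f 1 - mass p semi 1) := by
    have e : ∀ t, gam p t (f t) = (f t ^ (p + 1) - semi t ^ (p + 1)) +
        wgt p * (((p : ℝ) + 3) * (t ^ 2 * (f t ^ (p + 1) - semi t ^ (p + 1))) -
          (f t ^ (p + 3) - semi t ^ (p + 3))) -
        cr p * (((p : ℝ) + 1) / p) * (f t ^ p - semi t ^ p) := fun t => by rw [gam]; ring
    rw [intervalIntegral.integral_congr fun t _ => e t, intervalIntegral.integral_sub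
      ((j _).add (((jt.const_mul _).sub (j _)).const_mul _)) ((j _).const_mul _),
      intervalIntegral.integral_add (j _) (((jt.const_mul _).sub (j _)).const_mul _),
      intervalIntegral.integral_const_mul, intervalIntegral.integral_sub (jt.const_mul _) (j _),
      intervalIntegral.integral_const_mul, intervalIntegral.integral_const_mul, excess, mass, mass,
      mass, mass, ← intervalIntegral.integral_sub (int_pow hf _ h00 h01) (int_pow hs _ h00 h01),
      ← intervalIntegral.integral_sub (int_pow hf _ h00 h01) (int_pow hs _ h00 h01)]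
  have hpos : 0 ≤ ((p : ℝ) + 3) * (∫ t in (0 : ℝ)..1, t ^ 2 * (f t ^ (p + 1) - semi t ^ (p + 1))) -
      ∫ t in (0 : ℝ)..1, (f t ^ (p + 3) - semi t ^ (p + 3)) := by
    rw [varTerm, he2, integral_even hf (p + 1 + 2)] at hvar
    have h2 := moment_two (p + 1)
    have h3 := mass_semi_step (p + 1)
    rw [intervalIntegral.integral_congr fun t _ => mul_sub (t ^ 2) (f t ^ (p + 1)) (semi t ^ (p + 1)),
      intervalIntegral.integral_sub k1 k2,
      intervalIntegral.integral_sub (int_pow hf _ h00 h01) (int_pow hs _ h00 h01), h2]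
    change 0 ≤ _ - (mass (p + 3) f 1 - mass (p + 3) semi 1)
    push_cast at hvar h3 ⊢
    rw [show p + 1 + 2 = p + 3 from rfl] at hvar h3
    rw [h3, mul_sub]
    have : ((p : ℝ) + 3) * (mass (p + 1) semi 1 / ((p : ℝ) + 1 + 3)) =
        ((p : ℝ) + 1 + 2) / ((p : ℝ) + 1 + 3) * mass (p + 1) semi 1 := by ring
    linarith
  have hge : 0 ≤ ∫ t in (0 : ℝ)..1, gam p t (f t) := by
    rw [eint]
    have := mul_nonneg (show 0 ≤ wgt p by unfold wgt; positivity) hpos
    linarith
  have hgi : IntervalIntegrable (fun t => gam p t (f t)) volume 0 1 := by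
    have : (fun t => gam p t (f t)) = fun t => (f t ^ (p + 1) - semi t ^ (p + 1)) +
        wgt p * (((p : ℝ) + 3) * (t ^ 2 * (f t ^ (p + 1) - semi t ^ (p + 1))) -
          (f t ^ (p + 3) - semi t ^ (p + 3))) -
        cr p * (((p : ℝ) + 1) / p) * (f t ^ p - semi t ^ p) := by
      funext t; rw [gam]; ring
    rw [this]
    exact ((j _).add (((jt.const_mul _).sub (j _)).const_mul _)).sub ((j _).const_mul _)
  exact ⟨hgi, hge⟩

/-- The profile bound from the threshold up to `T₂` and a small tail beyond. -/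
theorem profileBound_tiny {p : ℕ} (hp : 1 ≤ p) {a g d : ℝ → ℝ} (hf : IsProfile f)
    (hmix : MixedTest (p + 1) a g d f) (ha : a (∫ t in (-1 : ℝ)..1, f t ^ (p + 1)) = wgt p)
    (hg : g (∫ t in (-1 : ℝ)..1, f t ^ (p + 1)) = 0) (hd : d (∫ t in (-1 : ℝ)..1, f t ^ (p + 1)) = 0)
    (H : 0 < excess p f → ∃ T₂ ∈ Icc (0 : ℝ) 1, (∀ t ∈ Ioo (0 : ℝ) T₂, f t * den p t ≤ cr p) ∧
      (3 / 2 + mu p) * ∫ t in T₂..1, (f t ^ (p + 1) - semi t ^ (p + 1)) < mu p * excess p f) :
    ProfileBound (p + 1) f := by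
  rcases (excess_nonneg' p hf).eq_or_lt with h0 | h0
  · exact profileBound_of_eq hp hf h0.ge
  obtain ⟨T₂, hT, hbulk, htail⟩ := H h0
  have hs := isProfile_semi
  simp only [ProfileBound, Nat.add_sub_cancel, integral_even hf p, integral_even hs p,
    integral_even hf (p + 1), integral_even hs (p + 1)]
  suffices h : (2 * mass p semi 1) ^ (p + 1) * (2 * mass (p + 1) f 1) ^ p <
      (2 * mass p f 1) ^ (p + 1) * (2 * mass (p + 1) semi 1) ^ p from
    ⟨h.le, fun e => absurd e h.ne'⟩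
  by_contra hfail
  push Not at hfail
  obtain ⟨hgi, hge⟩ := gam_integral_of_fail hp hf hmix ha hg hd hfail
  have h00 : (0 : ℝ) ∈ Icc (-1 : ℝ) 1 := by norm_num
  have h01 : (1 : ℝ) ∈ Icc (-1 : ℝ) 1 := by norm_num
  have j : ∀ q : ℕ, IntervalIntegrable (fun t => f t ^ q - semi t ^ q) volume 0 1 := fun q =>
    (int_pow hf q h00 h01).sub (int_pow hs q h00 h01)
  have hsub1 : uIcc (0 : ℝ) T₂ ⊆ uIcc 0 1 := by
    rw [uIcc_of_le hT.1, uIcc_of_le zero_le_one]; exact Icc_subset_Icc le_rfl hT.2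
  have hsub2 : uIcc T₂ 1 ⊆ uIcc (0 : ℝ) 1 := by
    rw [uIcc_of_le hT.2, uIcc_of_le zero_le_one]; exact Icc_subset_Icc hT.1 le_rfl
  have hA : ∫ t in (0 : ℝ)..T₂, gam p t (f t) ≤
      ∫ t in (0 : ℝ)..T₂, -mu p * (f t ^ (p + 1) - semi t ^ (p + 1)) :=
    intervalIntegral.integral_mono_on_of_le_Ioo hT.1 (hgi.mono_set hsub1)
      (((j _).mono_set hsub1).const_mul _) fun t ht =>
        gam_neg hp ⟨by linarith [ht.1], by linarith [ht.2, hT.2]⟩
          (hf.2.2 t ⟨by linarith [ht.1], by linarith [ht.2, hT.2]⟩) (hbulk t ht)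
  have hB : ∫ t in T₂..1, gam p t (f t) ≤
      ∫ t in T₂..1, 3 / 2 * (f t ^ (p + 1) - semi t ^ (p + 1)) :=
    intervalIntegral.integral_mono_on_of_le_Ioo hT.2 (hgi.mono_set hsub2)
      (((j _).mono_set hsub2).const_mul _) fun t ht =>
        gam_le_crude hp ⟨by linarith [ht.1, hT.1], ht.2⟩ (hf.2.2 t ⟨by linarith [ht.1, hT.1], ht.2⟩)
  rw [intervalIntegral.integral_const_mul] at hA hB
  rw [← intervalIntegral.integral_add_adjacent_intervals (hgi.mono_set hsub1) (hgi.mono_set hsub2)] at hge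
  have hex : excess p f = (∫ t in (0 : ℝ)..T₂, (f t ^ (p + 1) - semi t ^ (p + 1))) +
      ∫ t in T₂..1, (f t ^ (p + 1) - semi t ^ (p + 1)) := by
    rw [intervalIntegral.integral_add_adjacent_intervals ((j _).mono_set hsub1) ((j _).mono_set hsub2),
      intervalIntegral.integral_sub (int_pow hf _ h00 h01) (int_pow hs _ h00 h01)]
    rfl
  rw [hex] at htail
  linarith

/-- The profile bound from a pointwise margin. -/
theorem profileBound_pointwise {p : ℕ} (hp : 1 ≤ p) {a g d : ℝ → ℝ} {δ : ℝ} (hδ : 0 < δ) (hf : IsProfile f)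
    (hmix : MixedTest (p + 1) a g d f) (ha : a (∫ t in (-1 : ℝ)..1, f t ^ (p + 1)) = wgt p)
    (hg : g (∫ t in (-1 : ℝ)..1, f t ^ (p + 1)) = 0) (hd : d (∫ t in (-1 : ℝ)..1, f t ^ (p + 1)) = 0)
    (H : 0 < excess p f → ∀ t ∈ Ioo (0 : ℝ) 1,
      gam p t (f t) ≤ -δ * (f t ^ (p + 1) - semi t ^ (p + 1))) :
    ProfileBound (p + 1) f := by
  rcases (excess_nonneg' p hf).eq_or_lt with h0 | h0
  · exact profileBound_of_eq hp hf h0.ge
  have hs := isProfile_semi
  simp only [ProfileBound, Nat.add_sub_cancel, integral_even hf p, integral_even hs p,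
    integral_even hf (p + 1), integral_even hs (p + 1)]
  suffices h : (2 * mass p semi 1) ^ (p + 1) * (2 * mass (p + 1) f 1) ^ p <
      (2 * mass p f 1) ^ (p + 1) * (2 * mass (p + 1) semi 1) ^ p from
    ⟨h.le, fun e => absurd e h.ne'⟩
  by_contra hfail
  push Not at hfail
  obtain ⟨hgi, hge⟩ := gam_integral_of_fail hp hf hmix ha hg hd hfail
  have h00 : (0 : ℝ) ∈ Icc (-1 : ℝ) 1 := by norm_num
  have h01 : (1 : ℝ) ∈ Icc (-1 : ℝ) 1 := by norm_num
  have h := intervalIntegral.integral_mono_on_of_le_Ioo zero_le_one hgi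
    (((int_pow hf (p + 1) h00 h01).sub (int_pow hs (p + 1) h00 h01)).const_mul _) (H h0)
  rw [intervalIntegral.integral_const_mul,
    intervalIntegral.integral_sub (int_pow hf _ h00 h01) (int_pow hs _ h00 h01)] at h
  have : 0 < δ * excess p f := mul_pos hδ h0
  rw [excess, mass, mass] at this
  linarith

end Vale.Agent.P237.All.Transport.Tiny
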