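import Vale.Agent.P237.All.Tiny.SmallStep

/-!
P237, dimensions below thirty, small excess: the rational check (`notes/P237h8/tiny-k-02Dec.md`).
The data are recomputed by the check; soundness only uses the verified inequalities.
-/

noncomputable section

open MeasureTheory Set Real

namespace Vale.Agent.P237.All.Transport.Tiny

variable {f : ℝ → ℝ}

/-- The moment ratio from below. -/
def crQ : ℕ → ℚ
  | 0 => 31415926 / 40000000
  | 1 => 80000000 / (3 * 31415927)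
  | p + 2 => ((p : ℚ) + 3) ^ 2 / (((p : ℚ) + 4) * ((p : ℚ) + 2)) * crQ p

/-- The moment from above. -/
def massQ : ℕ → ℚ
  | 0 => 1
  | 1 => 31415927 / 40000000
  | p + 2 => ((p : ℚ) + 2) / ((p : ℚ) + 3) * massQ p

/-- A bump at the points of `[a, b]`. -/
structure Bump where
  a : ℚ
  b : ℚ
  sl : ℚ
  h : ℚ
  wl : ℚ
  wr : ℚ
  u : ℚ

/-- The bump costs more than `K`. -/
def Bump.ok (B : Bump) (p : ℕ) (K : ℚ) : Bool :=
  decide (0 ≤ B.a) && decide (B.a ≤ B.b) && decide (B.b < 1) && decide (0 < B.sl) &&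
  decide (B.sl ^ 2 + B.b ^ 2 ≤ 1) && decide (0 ≤ B.h) && decide (0 ≤ B.wl) && decide (B.wl ≤ B.a) &&
  decide (B.wl ^ 2 ≤ 2 * B.h * B.sl ^ 3) && decide (0 ≤ B.wr) && decide (B.b + B.wr < 1) &&
  decide (0 ≤ B.u) && decide (B.u ^ 2 + (B.b + B.wr) ^ 2 ≤ 1) && decide (B.wr ^ 2 ≤ 2 * B.h * B.u ^ 3) &&
  decide (K < ((p : ℚ) + 1) * B.h * (B.sl ^ p * B.wl + B.u ^ p * B.wr) / 3)

/-- Half the coefficient of the threshold. -/
def bQ (p : ℕ) : ℚ := ((p : ℚ) + 2) / (2 * ((p : ℚ) + 1))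

/-- The threshold clears `semi + h` on the interval. -/
def cellOK (B : Bump) (p : ℕ) (c sh s0 : ℚ) : Bool :=
  decide (0 ≤ sh) && decide (1 ≤ sh ^ 2 + B.a ^ 2) && decide (0 ≤ s0) && decide ((p : ℚ) * B.h * 9 ≤ 2 * B.sl) &&
  decide (sh + B.h ≤ 2) && decide (9 / 20 * c / B.sl ≤ 3 / 2 - bQ p * sh ^ 2) &&
  decide (3 / 2 * s0 - bQ p * s0 ^ 3 + (3 / 2 - 3 * bQ p * s0 ^ 2) * (B.sl - s0) +
    B.h * (3 / 2 - bQ p * B.sl ^ 2 - 9 / 20 * c / sh) ≤ c - 1 / 1000000) &&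
  decide (3 / 2 * s0 - bQ p * s0 ^ 3 + (3 / 2 - 3 * bQ p * s0 ^ 2) * (sh - s0) +
    B.h * (3 / 2 - bQ p * B.sl ^ 2 - 9 / 20 * c / sh) ≤ c - 1 / 1000000)

/-- Newton's steps for the root. -/
def sqrtStep (n : ℕ) : ℕ → ℕ → ℕ
  | 0, g => g
  | i + 1, g => let g' := (g + n / g) / 2; if g ≤ g' then g else sqrtStep n i g'

/-- A root from below, to six digits, scaled by a million. -/
def rootN (x : ℚ) : ℕ :=
  let n := (x * 1000000000000).floor.toNat
  sqrtStep n 40 (n + 1)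

/-- Evaluates `n` before passing it on. -/
def force {α : Type} (n : ℕ) (k : ℕ → α) : α :=
  match n with
  | 0 => k 0
  | m + 1 => k (m + 1)

theorem force_eq {α : Type} (n : ℕ) (k : ℕ → α) : force n k = k n := by cases n <;> rfl

/-- A root from below. -/
def rootLo (x : ℚ) : ℚ := (rootN x : ℕ) / 1000000

/-- A root from above. -/
def rootHi (x : ℚ) : ℚ := rootLo x + 1 / 1000000

/-- The bump on `[a, b]` with height `h`, passed on. -/
def withBump (a b h : ℚ) (k : Bump → Bool) : Bool :=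
  force (rootN (1 - b ^ 2)) fun s =>
  force (rootN (2 * h) + 1) fun w =>
  force (if b + (w : ℚ) / 1000000 < 1 then rootN (1 - (b + (w : ℚ) / 1000000) ^ 2) else 0) fun u =>
  force (rootN (2 * h * ((s : ℚ) / 1000000) ^ 3)) fun l =>
  force (rootN (2 * h * ((u : ℚ) / 1000000) ^ 3)) fun r =>
  k { a := a, b := b, sl := (s : ℚ) / 1000000, h := h, wl := min ((l : ℚ) / 1000000) a,
      wr := (r : ℚ) / 1000000, u := (u : ℚ) / 1000000 }

theorem of_withBump {a b h : ℚ} {k : Bump → Bool} (hk : withBump a b h k = true) :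
    ∃ B : Bump, B.a = a ∧ B.b = b ∧ B.h = h ∧ k B = true := by
  simp only [withBump, force_eq] at hk
  exact ⟨_, rfl, rfl, rfl, hk⟩

/-- The height on a cell, in units of a hundred millionth. -/
def cellH (p : ℕ) (c sl sh : ℚ) : ℕ :=
  let s0 := (sl + sh) / 2
  let g := 3 / 2 * s0 - bQ p * s0 ^ 3
  let d := 3 / 2 - 3 * bQ p * s0 ^ 2
  let top := max (g + d * (sl - s0)) (g + d * (sh - s0))
  ((min ((c - 1 / 1000000 - top) / (3 / 2 - bQ p * sl ^ 2 - 9 / 20 * c / sh)) (2 * sl / (9 * (p : ℚ)))) *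
    100000000).floor.toNat

/-- The cell `[i / 50, (i + 1) / 50]`. -/
def cellCheck (p : ℕ) (c K : ℚ) (i : ℕ) : Bool :=
  force (rootN (1 - (((i : ℚ) + 1) / 50) ^ 2)) fun sl =>
  force (rootN (1 - ((i : ℚ) / 50) ^ 2) + 1) fun sh =>
  force (cellH p c ((sl : ℚ) / 1000000) ((sh : ℚ) / 1000000)) fun h =>
  withBump ((i : ℚ) / 50) (((i : ℚ) + 1) / 50) ((h : ℚ) / 100000000) fun B =>
  B.ok p K && cellOK B p c ((sh : ℚ) / 1000000) (((sl : ℚ) + (sh : ℚ)) / 2000000)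

/-- The line through `a₀` and `b` on the `j`th of `M` parts of `[b, 1]`. -/
def lineStep (p M : ℕ) (c b F σ : ℚ) (j : ℕ) : Bool :=
  decide ((F - σ * ((1 - b) * (j : ℚ) / M)) *
    (1 - 1 / (2 * ((p : ℚ) + 1)) + bQ p * (b + (1 - b) * ((j : ℚ) + 1) / M) ^ 2) ≤ c - 1 / 1000000)

/-- The line beyond `b`. -/
def lineCheck (p M : ℕ) (c K a0 b hL : ℚ) : Bool :=
  force (rootN (1 - b ^ 2) + 1) fun sb' =>
  force (rootN (1 - a0 ^ 2)) fun sA' =>
  withBump b b hL fun B =>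
  let sb : ℚ := (sb' : ℚ) / 1000000
  let sA : ℚ := (sA' : ℚ) / 1000000
  let F := sb + hL
  let σ := (sA - F) / (b - a0)
  B.ok p K && decide (0 ≤ sb) && decide (1 ≤ sb ^ 2 + b ^ 2) &&
  decide (0 ≤ sA) && decide (sA ^ 2 + a0 ^ 2 ≤ 1) && decide (0 ≤ a0) && decide (a0 < b) && decide (b < 1) &&
  decide (0 ≤ σ) && decide (F ≤ 2) && decide (0 < M) && (List.range M).all (lineStep p M c b F σ)

/-- Every point clears the threshold when `k ≤ k₀`. -/
def smallCheck (p : ℕ) (k0 : ℚ) (n : ℕ) (a0 hL : ℚ) : Bool :=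
  force (crQ p * 10000000000).floor.toNat fun cN =>
  force ((((k0 / ((p : ℚ) + 1) + (k0 / ((p : ℚ) + 1)) ^ 2) * massQ (p + 1)) * 1000000000000).floor.toNat + 1)
    fun KN =>
  let c : ℚ := (cN : ℚ) / 10000000000
  let K : ℚ := (KN : ℚ) / 1000000000000
  decide (1 ≤ p) && decide (0 < n) && decide (0 ≤ k0) && decide (k0 ≤ 1) && decide (c ≤ crQ p) &&
  decide ((k0 / ((p : ℚ) + 1) + (k0 / ((p : ℚ) + 1)) ^ 2) * massQ (p + 1) ≤ K) &&
  (List.range n).all (cellCheck p c K) && lineCheck p 80 c K a0 ((n : ℚ) / 50) hL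

theorem crQ_le : ∀ p, ((crQ p : ℚ) : ℝ) ≤ cr p
  | 0 => by
    have h := mass_semi_mul 0
    have h0 : mass 0 semi 1 = 1 := by simp [mass]
    rw [h0, one_mul] at h
    rw [cr, h, h0, crQ]
    push_cast
    linarith [Real.pi_gt_d20]
  | 1 => by
    have h := mass_semi_mul 0
    have h0 : mass 0 semi 1 = 1 := by simp [mass]
    rw [h0, one_mul] at h
    rw [cr, show (1 : ℕ) + 1 = 0 + 2 from rfl, mass_semi_step, h0]
    rw [h, crQ]
    push_cast
    rw [div_le_div_iff₀ (by norm_num) (by positivity)]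
    linarith [Real.pi_lt_d20]
  | p + 2 => by
    rw [cr_step, crQ]
    push_cast
    exact mul_le_mul_of_nonneg_left (crQ_le p) (by positivity)

theorem massQ_ge : ∀ p, mass p semi 1 ≤ ((massQ p : ℚ) : ℝ)
  | 0 => by simp [mass, massQ]
  | 1 => by
    have h := mass_semi_mul 0
    have h0 : mass 0 semi 1 = 1 := by simp [mass]
    rw [h0, one_mul] at h
    rw [h, massQ]
    push_cast
    linarith [Real.pi_lt_d20]
  | p + 2 => by
    rw [mass_semi_step, massQ]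
    push_cast
    exact mul_le_mul_of_nonneg_left (massQ_ge p) (by positivity)

theorem le_semi_of_sq {x y : ℝ} (h : x ^ 2 + y ^ 2 ≤ 1) : x ≤ semi y :=
  Real.le_sqrt_of_sq_le (by linarith)

theorem semi_le_of_sq {x y : ℝ} (hx : 0 ≤ x) (h : 1 ≤ x ^ 2 + y ^ 2) : semi y ≤ x :=
  Real.sqrt_le_left hx |>.2 (by linarith)

theorem Bump.lt_semi_add {B : Bump} {p : ℕ} {K : ℚ} (hok : B.ok p K = true) (hf : IsProfile f)
    (hex : excess p f ≤ (K : ℝ)) {t : ℝ} (ht : t ∈ Icc (B.a : ℝ) (B.b : ℝ)) :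
    f t < semi t + (B.h : ℝ) := by
  simp only [Bump.ok, Bool.and_eq_true, decide_eq_true_eq, and_assoc] at hok
  obtain ⟨h1, h2, h3, h4, h5, h6, h7, h8, h9, h10, h11, h12, h13, h14, h15⟩ := hok
  have h3' : (B.b : ℝ) < 1 := by exact_mod_cast h3
  have h1' : (0 : ℝ) ≤ B.a := by exact_mod_cast h1
  have h4' : (0 : ℝ) < B.sl := by exact_mod_cast h4
  have h5' : (B.sl : ℝ) ^ 2 + (B.b : ℝ) ^ 2 ≤ 1 := by exact_mod_cast h5
  have h8' : (B.wl : ℝ) ≤ B.a := by exact_mod_cast h8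
  have h11' : (B.b : ℝ) + B.wr < 1 := by exact_mod_cast h11
  have h12' : (0 : ℝ) ≤ B.u := by exact_mod_cast h12
  have h13' : (B.u : ℝ) ^ 2 + ((B.b : ℝ) + B.wr) ^ 2 ≤ 1 := by exact_mod_cast h13
  have h15' : (K : ℝ) < ((p : ℝ) + 1) * B.h * ((B.sl : ℝ) ^ p * B.wl + (B.u : ℝ) ^ p * B.wr) / 3 := by
    exact_mod_cast h15
  exact lt_of_excess_two p hf (h1'.trans ht.1) ht.2 (by exact_mod_cast h6) h3' h4'.le
    (le_semi_of_sq h5') (by exact_mod_cast h7) (h8'.trans ht.1) (by exact_mod_cast h9)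
    (by exact_mod_cast h10) (Or.inr ⟨by linarith [ht.2], h11'⟩) h12'
    (Or.inr (le_semi_of_sq h13')) (by exact_mod_cast h14) (hex.trans_lt h15')

theorem cellCheck_sound {p : ℕ} {c K : ℚ} {i : ℕ} (hp : 1 ≤ p) (hc0 : 0 ≤ c) (hc : c ≤ crQ p)
    (hok : cellCheck p c K i = true) (hf : IsProfile f) (hex : excess p f ≤ (K : ℝ)) {t : ℝ}
    (ht : t ∈ Ioo (0 : ℝ) 1) (hi : t ∈ Icc ((i : ℝ) / 50) (((i : ℝ) + 1) / 50)) :
    gam p t (f t) ≤ -(1 / 2000000) * (f t ^ (p + 1) - semi t ^ (p + 1)) := by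
  simp only [cellCheck, force_eq] at hok
  obtain ⟨B, ha, hb, -, hok⟩ := of_withBump hok
  simp only [Bool.and_eq_true] at hok
  generalize (_ : ℚ) / 2000000 = s0 at hok
  generalize ((rootN _ + 1 : ℕ) : ℚ) / 1000000 = sh at hok
  obtain ⟨hB, hC⟩ := hok
  simp only [cellOK, Bool.and_eq_true, decide_eq_true_eq, and_assoc] at hC
  obtain ⟨h1, h2, h3, h4, h5, h6, h7, h8⟩ := hC
  have hB' := hB
  simp only [Bump.ok, Bool.and_eq_true, decide_eq_true_eq, and_assoc] at hB'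
  obtain ⟨-, -, -, hsl, hsl2, -⟩ := hB'
  have hta : (B.a : ℝ) ≤ t := by rw [ha]; push_cast; exact hi.1
  have htb : t ≤ (B.b : ℝ) := by rw [hb]; push_cast; exact hi.2
  have hlt := B.lt_semi_add hB hf hex (t := t) ⟨hta, htb⟩
  have hsl' : (B.sl : ℝ) ≤ semi t := le_semi_of_sq (by
    have : (B.sl : ℝ) ^ 2 + (B.b : ℝ) ^ 2 ≤ 1 := by exact_mod_cast hsl2
    nlinarith [pow_le_pow_left₀ ht.1.le htb 2])
  have hsh : semi t ≤ (sh : ℝ) := semi_le_of_sq (by exact_mod_cast h1) (by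
    have : (1 : ℝ) ≤ (sh : ℝ) ^ 2 + (B.a : ℝ) ^ 2 := by exact_mod_cast h2
    have ha0 : (0 : ℝ) ≤ B.a := by rw [ha]; push_cast; positivity
    nlinarith [pow_le_pow_left₀ ha0 hta 2])
  have hc' : (c : ℝ) ≤ cr p := (Rat.cast_le.2 hc).trans (crQ_le p)
  refine gam_margin_cell (c := (c : ℝ)) (h := (B.h : ℝ)) (sl := (B.sl : ℝ)) (sh := (sh : ℝ))
    (s0 := (s0 : ℝ)) hp ⟨by linarith [ht.1], ht.2⟩ (hf.2.2 t ⟨by linarith [ht.1], ht.2⟩) hlt
    (by exact_mod_cast hsl) hsl' hsh (by exact_mod_cast h3) (by exact_mod_cast hc0) hc' ?_ ?_ ?_ ?_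
  · exact_mod_cast h4
  · exact_mod_cast h5
  · have := (Rat.cast_le (K := ℝ)).2 h6
    simp only [bQ] at this; push_cast at this; exact this
  · rintro s (rfl | rfl)
    · have := (Rat.cast_le (K := ℝ)).2 h7
      simp only [bQ] at this; push_cast at this; exact this
    · have := (Rat.cast_le (K := ℝ)).2 h8
      simp only [bQ] at this; push_cast at this; exact this

theorem lineCheck_sound {p M : ℕ} {c K a0 b hL : ℚ} (hp : 1 ≤ p) (hc : c ≤ crQ p)
    (hok : lineCheck p M c K a0 b hL = true) (hf : IsProfile f) (hex : excess p f ≤ (K : ℝ))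
    {t : ℝ} (ht : t ∈ Ioo (0 : ℝ) 1) (hbt : (b : ℝ) ≤ t) :
    gam p t (f t) ≤ -(1 / 2000000) * (f t ^ (p + 1) - semi t ^ (p + 1)) := by
  simp only [lineCheck, force_eq] at hok
  obtain ⟨B, ha, hb, hh, hok⟩ := of_withBump hok
  simp only [Bool.and_eq_true, decide_eq_true_eq, and_assoc] at hok
  generalize ((rootN _ + 1 : ℕ) : ℚ) / 1000000 = sb at hok
  generalize ((rootN _ : ℕ) : ℚ) / 1000000 = sA at hok
  obtain ⟨hB, hsb0, hsb, hsA0, hsA, ha00, ha0b, hb1, hσ, hF, hM, hall⟩ := hok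
  set Fq := sb + hL
  set σq := (sA - Fq) / (b - a0) with hσq
  have hfb := B.lt_semi_add hB hf hex (t := (b : ℝ)) ⟨by rw [ha], by rw [hb]⟩
  rw [hh] at hfb
  have hb' : (0 : ℝ) ≤ a0 ∧ (a0 : ℝ) < b ∧ (b : ℝ) < 1 :=
    ⟨by exact_mod_cast ha00, by exact_mod_cast ha0b, by exact_mod_cast hb1⟩
  have hF' : f b ≤ (Fq : ℝ) := by
    have : semi (b : ℝ) ≤ (sb : ℝ) := semi_le_of_sq (by exact_mod_cast hsb0) (by exact_mod_cast hsb)
    simp only [Fq]; push_cast; linarith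
  have hline := line_bound hf hb'.1 hb'.2.1 hbt ht.2 hF'
  have hsA' : (sA : ℝ) ≤ semi (a0 : ℝ) := le_semi_of_sq (by exact_mod_cast hsA)
  have hl : f t ≤ (Fq : ℝ) - (σq : ℝ) * (t - b) := by
    refine hline.trans (sub_le_sub_left (mul_le_mul_of_nonneg_right ?_ (by linarith)) _)
    rw [hσq]; push_cast
    exact div_le_div_of_nonneg_right (by linarith) (by linarith [hb'.2.1])
  have hlen : (0 : ℝ) < 1 - b := by linarith [hb'.2.2]
  have hMr : (0 : ℝ) < M := Nat.cast_pos.2 hM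
  have hq : 0 ≤ (t - b) / (1 - b) * M := by positivity [sub_nonneg.2 hbt]
  set j := ⌊(t - b) / (1 - b) * M⌋₊ with hj
  have hjM : j < M := by
    rw [hj, Nat.floor_lt hq]
    exact mul_lt_of_lt_one_left hMr ((div_lt_one hlen).2 (by linarith [ht.2]))
  have hs := List.all_eq_true.1 hall j (List.mem_range.2 hjM)
  simp only [lineStep, decide_eq_true_eq] at hs
  have hs' := (Rat.cast_le (K := ℝ)).2 hs
  simp only [bQ] at hs'; push_cast at hs'
  have hju : (1 - (b : ℝ)) * j / M ≤ t - b := by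
    rw [div_le_iff₀ hMr]
    have := mul_le_mul_of_nonneg_left (Nat.floor_le hq) hlen.le
    rw [← hj] at this
    refine this.trans (le_of_eq ?_)
    field_simp
  have hjv : t - b ≤ (1 - (b : ℝ)) * ((j : ℝ) + 1) / M := by
    rw [le_div_iff₀ hMr]
    have := mul_le_mul_of_nonneg_left (Nat.lt_floor_add_one ((t - b) / (1 - b) * M)).le hlen.le
    rw [← hj] at this
    refine le_of_eq_of_le ?_ this
    field_simp
  have hσ0 : (0 : ℝ) ≤ (σq : ℝ) := by exact_mod_cast hσ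
  have hF2 : (Fq : ℝ) ≤ 2 := by exact_mod_cast hF
  refine gam_margin_line (c := (c : ℝ)) (F := (Fq : ℝ) - (σq : ℝ) * ((1 - b) * j / M))
    (v := (b : ℝ) + (1 - b) * ((j : ℝ) + 1) / M) hp ht (by linarith)
    (hf.2.2 t ⟨by linarith [ht.1], ht.2⟩) ?_ ?_ ((Rat.cast_le.2 hc).trans (crQ_le p)) hs'
  · linarith [mul_le_mul_of_nonneg_left hju hσ0]
  · linarith [mul_nonneg hσ0 (show 0 ≤ (1 - (b : ℝ)) * j / M by positivity)]

/-- The bound from the check. -/
theorem hasBound_of_check {p n : ℕ} {k0 a0 hL : ℚ} (hok : smallCheck p k0 n a0 hL = true) {J k : ℝ}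
    (hJ : J ≤ exp (k / ((p : ℝ) + 1)) * (2 * mass (p + 1) semi 1)) (hk : k ≤ (k0 : ℝ)) :
    HasBound p J := by
  simp only [smallCheck, force_eq, Bool.and_eq_true, decide_eq_true_eq, and_assoc] at hok
  have hc0 : (0 : ℚ) ≤ ((crQ p * 10000000000).floor.toNat : ℚ) / 10000000000 := by positivity
  generalize (_ : ℚ) / 10000000000 = c at hok hc0
  generalize (_ : ℚ) / 1000000000000 = K at hok
  obtain ⟨hp, hn, hk00, hk01, hc, hK, hcells, hline⟩ := hok
  refine ⟨wgt p, 0, 0, by unfold wgt; positivity, le_rfl, le_rfl, fun f hf hfJ hmix =>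
    profileBound_pointwise hp (by norm_num : (0 : ℝ) < 1 / 2000000) hf hmix rfl rfl rfl
      fun _ t ht => ?_⟩
  rw [integral_even hf] at hfJ
  set y := (k0 : ℝ) / ((p : ℝ) + 1) with hy
  have hy0 : 0 ≤ y := by rw [hy]; exact div_nonneg (by exact_mod_cast hk00) (by positivity)
  have hy1 : y ≤ 1 := by
    rw [hy, div_le_one (by positivity)]
    linarith [(show (k0 : ℝ) ≤ 1 by exact_mod_cast hk01), (Nat.cast_nonneg p : (0 : ℝ) ≤ p)]
  have hex : excess p f ≤ (((k0 / ((p : ℚ) + 1) + (k0 / ((p : ℚ) + 1)) ^ 2) * massQ (p + 1) : ℚ) : ℝ) := by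
    push_cast
    rw [← hy]
    have hexp : exp (k / ((p : ℝ) + 1)) ≤ 1 + (y + y ^ 2) := by
      refine (exp_le_exp.2 (div_le_div_of_nonneg_right hk (by positivity))).trans ?_
      have := abs_exp_sub_one_sub_id_le (x := y) (by rwa [abs_of_nonneg hy0])
      rw [abs_le] at this
      linarith [this.2]
    have h1 := hJ.trans' hfJ.le
    have hP := mass_one_pos isProfile_semi (p + 1)
    have h2 := mul_le_mul_of_nonneg_right hexp hP.le
    have h3 := mul_le_mul_of_nonneg_left (massQ_ge (p + 1)) (show 0 ≤ y + y ^ 2 by positivity)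
    rw [excess]
    linarith
  replace hex : excess p f ≤ (K : ℝ) := hex.trans (Rat.cast_le.2 hK)
  by_cases htn : t ≤ (n : ℝ) / 50
  · have hpos : 0 < t * 50 := by linarith [ht.1]
    obtain ⟨i, hi⟩ : ∃ i, ⌈t * 50⌉₊ = i + 1 :=
      ⟨⌈t * 50⌉₊ - 1, (Nat.succ_pred_eq_of_pos (Nat.ceil_pos.2 hpos)).symm⟩
    have hin : i < n := by
      have : ⌈t * 50⌉₊ ≤ n := Nat.ceil_le.2 (by linarith)
      omega
    have h1 := Nat.le_ceil (t * 50)
    have h2 := Nat.ceil_lt_add_one hpos.le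
    rw [hi] at h1 h2
    push_cast at h1 h2
    exact cellCheck_sound hp hc0 hc (List.all_eq_true.1 hcells i (List.mem_range.2 hin)) hf hex ht
      ⟨by linarith, by linarith⟩
  · exact lineCheck_sound hp hc hline hf hex ht (by push_cast; linarith)

end Vale.Agent.P237.All.Transport.Tiny
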