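import Vale.Agent.P237.All.Tiny.MidStep
import Vale.Agent.P237.All.Tiny.SmallCheck

/-!
P237, dimensions thirty to ninety-nine, small excess: the rational check. Near the middle the cells
of `SmallCheck`; beyond them on `[i / 100, i' / 100]` a cap whose chord costs more than the excess.
-/

noncomputable section

open MeasureTheory Set Real

namespace Vale.Agent.P237.All.Transport.Tiny

variable {f : ℝ → ℝ}

/-- The semicircle at `j / 100` from below, in millionths. -/
def rootTab : List ℕ :=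
  [1000000, 999949, 999799, 999549, 999199, 998749, 998198, 997546, 996794, 995941,
    994987, 993931, 992773, 991513, 990151, 988685, 987117, 985444, 983666, 981784,
    979795, 977701, 975499, 973190, 970772, 968245, 965608, 962860, 960000, 957026,
    953939, 950736, 947417, 943980, 940425, 936749, 932952, 929031, 924986, 920814,
    916515, 912085, 907524, 902828, 897997, 893028, 887918, 882666, 877268, 871722,
    866025, 860174, 854166, 847997, 841665, 835164, 828492, 821644, 814616, 807403,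
    800000, 792401, 784601, 776595, 768374, 759934, 751265, 742361, 733212, 723809,
    714142, 704201, 693974, 683447, 672606, 661437, 649923, 638043, 625779, 613106,
    600000, 586429, 572363, 557763, 542586, 526782, 510294, 493051, 474973, 455960,
    435889, 414608, 391918, 367559, 341174, 312249, 280000, 243104, 198997, 141067,
    0]

/-- The semicircle at `(2j + 1) / 200` from above, in millionths. -/
def topTab : List ℕ :=
  [999988, 999888, 999688, 999388, 998987, 998487, 997886, 997184, 996381, 995478,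
    994473, 993366, 992157, 990846, 989432, 987915, 986294, 984569, 982739, 980804,
    978762, 976615, 974359, 971996, 969524, 966942, 964249, 961445, 958528, 955498,
    952353, 949092, 945715, 942219, 938603, 934867, 931008, 927025, 922917, 918682,
    914317, 909822, 905194, 900431, 895531, 890492, 885311, 879986, 874515, 868893,
    863120, 857191, 851103, 844853, 838437, 831851, 825091, 818154, 811034, 803726,
    796226, 788528, 780625, 772513, 764183, 755629, 746844, 737818, 728544, 719010,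
    709208, 699125, 688749, 678068, 667065, 655725, 644031, 631962, 619496, 606610,
    593275, 579461, 565133, 550250, 534767, 518628, 501772, 484123, 465592, 446067,
    425412, 403454, 379968, 354648, 327071, 296606, 262250, 222205, 172555, 99875]

theorem tabs_ok :
    (((List.range 101).all (fun j => decide ((rootTab.getD j 0) ^ 2 + j ^ 2 * 100000000 ≤ 1000000000000))) &&
    ((List.range 100).all (fun j => decide (1000000000000 * 40000 ≤
      (topTab.getD j 0) ^ 2 * 40000 + (2 * j + 1) ^ 2 * 1000000000000)))) = true := by decide +kernel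

/-- The chord's mass on the `j`th hundredth, scaled. -/
def zterm (p i i0 T j : ℕ) : ℕ :=
  (rootTab.getD i0 0 * (2 * (i - i0)) - (rootTab.getD i0 0 - T) * (2 * j + 1 - 2 * i0) -
    topTab.getD j 0 * (2 * (i - i0))) * rootTab.getD (j + 1) 0 ^ p

/-- The chord's mass on `n` hundredths from `i0`. -/
def zsum (p i i0 T : ℕ) : ℕ → ℕ
  | 0 => 0
  | n + 1 => zsum p i i0 T n + zterm p i i0 T (i0 + n)

/-- The conditions for the cell `[i / 50, (i + 1) / 50]` with height `H`, widths `L`, `W`, root `V`;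
`SL` and `SH` bound the semicircle there, `cN` and `KN` are the scaled moment ratio and excess. -/
def midCellOK (p cN KN i SL SH H L V W : ℕ) : Bool :=
  decide (SL ^ 2 + (i + 1) ^ 2 * 400000000 ≤ 1000000000000) && decide (0 < SL) &&
  decide (1000000000000 ≤ SH ^ 2 + i ^ 2 * 400000000) && decide (0 < SH) &&
  decide (L ≤ 20000 * i) && decide (L ^ 2 * 100000000000000 ≤ 2 * H * SL ^ 3) &&
  decide ((i + 1) * 20000 + W < 1000000) && decide (V ^ 2 + ((i + 1) * 20000 + W) ^ 2 ≤ 1000000000000) &&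
  decide (W ^ 2 * 100000000000000 ≤ 2 * H * V ^ 3) &&
  decide (KN * 3 * 1000000 ^ (p + 1) * 100000000 < (p + 1) * H * (SL ^ p * L + V ^ p * W) * 10 ^ 30) &&
  decide (9 * p * H ≤ 200 * SL) && decide (100 * SH + H ≤ 200000000) &&
  decide (18 * cN * (p + 1) * 1000000000000000000 + (p + 2) * SH ^ 2 * 200000000000 * SL ≤
    3 * (p + 1) * 200000000000000000000000 * SL) &&
  decide (12 * (p + 1) * 10000000000000000000000 * SL * SH + (p + 2) * (SL + SH) ^ 3 * 10000000000 * SH +
      1200 * (p + 1) * 1000000000000000000 * SH * H + 8 * (p + 1) * 10000000000000000000000 * SH ≤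
    8 * (p + 1) * 1000000000000000000 * cN * SH + 3 * (p + 2) * (SL + SH) ^ 2 * SL * 10000000000 * SH +
      400 * (p + 2) * SL ^ 2 * 1000000 * H * SH + 36 * (p + 1) * cN * H * 1000000000000000) &&
  decide (12 * (p + 1) * 10000000000000000000000 * SH * SH + (p + 2) * (SL + SH) ^ 3 * 10000000000 * SH +
      1200 * (p + 1) * 1000000000000000000 * SH * H + 8 * (p + 1) * 10000000000000000000000 * SH ≤
    8 * (p + 1) * 1000000000000000000 * cN * SH + 3 * (p + 2) * (SL + SH) ^ 2 * SH * 10000000000 * SH +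
      400 * (p + 2) * SL ^ 2 * 1000000 * H * SH + 36 * (p + 1) * cN * H * 1000000000000000)

/-- The largest height the threshold allows on the cell. -/
def midH (p cN SL SH : ℕ) : ℕ :=
  let den := 1200 * (p + 1) * 1000000000000000000 * SH - 400 * (p + 2) * SL ^ 2 * 1000000 * SH -
    36 * (p + 1) * cN * 1000000000000000
  let num := fun S => 8 * (p + 1) * 1000000000000000000 * cN * SH +
    3 * (p + 2) * (SL + SH) ^ 2 * S * 10000000000 * SH - 12 * (p + 1) * 10000000000000000000000 * S * SH -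
    (p + 2) * (SL + SH) ^ 3 * 10000000000 * SH - 8 * (p + 1) * 10000000000000000000000 * SH
  min (min (num SL) (num SH) / den) (200 * SL / (9 * p))

/-- The cell `[i / 50, (i + 1) / 50]`. -/
def midCell (p cN KN i : ℕ) : Bool :=
  force (rootTab.getD (2 * i + 2) 0) fun SL =>
  force (rootTab.getD (2 * i) 0 + 1) fun SH =>
  force (midH p cN SL SH) fun H =>
  force (min (sqrtStep (2 * H * SL ^ 3 / 100000000000000) 40 (2 * H * SL ^ 3 / 100000000000000 + 1))
    (20000 * i)) fun L =>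
  force (sqrtStep (20000 * H) 40 (20000 * H + 1) + 1) fun W0 =>
  force (sqrtStep (1000000000000 - ((i + 1) * 20000 + W0) ^ 2) 40
    (1000000000000 - ((i + 1) * 20000 + W0) ^ 2 + 1)) fun V =>
  force (min W0 (sqrtStep (2 * H * V ^ 3 / 100000000000000) 40 (2 * H * V ^ 3 / 100000000000000 + 1))) fun W =>
  midCellOK p cN KN i SL SH H L V W

/-- A candidate for the cap on `[i / 100, i' / 100]`, with the ratio and the power sum. -/
def withCap (p i i' : ℕ) (cc : ℚ) (k : ℕ → ℕ → ℕ → Bool) : Bool :=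
  let d : ℚ := 1 - 1 / (2 * ((p : ℚ) + 1)) + bQ p * ((i' : ℚ) / 100) ^ 2
  force (min (cc / (((rootTab.getD i 0 : ℕ) + 1 : ℚ) / 1000000 * d) * 1000).floor.toNat 2000) fun r =>
  force ((r ^ (p + 1) - 1000 ^ (p + 1)) / ((r - 1000) * 1000 ^ p)) fun G =>
  force (max (cc / d * 1000000).floor.toNat
    (if G = 0 then 0 else (cc / d * 1000000 * (((p : ℚ) + 1) / p * (1 - 1 / (G : ℚ)))).floor.toNat)) fun T =>
  k r G T

theorem of_withCap {p i i' : ℕ} {cc : ℚ} {k : ℕ → ℕ → ℕ → Bool} (hk : withCap p i i' cc k = true) :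
    ∃ r G T, k r G T = true := by
  simp only [withCap, force_eq] at hk
  exact ⟨_, _, _, hk⟩

/-- Below the cap the margin holds. -/
def capOK (p i i' : ℕ) (cc : ℚ) (r G T : ℕ) : Bool :=
  let d : ℚ := 1 - 1 / (2 * ((p : ℚ) + 1)) + bQ p * ((i' : ℚ) / 100) ^ 2
  let sh : ℚ := ((rootTab.getD i 0 : ℕ) + 1 : ℚ) / 1000000
  let th : ℚ := ((p : ℚ) + 1) / p * (1 - 1 / (G : ℚ))
  decide (T ≤ 2000000) &&
  (decide ((T : ℚ) / 1000000 * d ≤ cc) ||
    (decide (1000000000000 ≤ (rootTab.getD i 0 + 1) ^ 2 + i ^ 2 * 100000000) &&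
      decide (1000 < r) && decide (r * (rootTab.getD i 0 + 1) ≤ 2000000000) && decide (0 < G) &&
      decide (G * (r - 1000) * 1000 ^ p + 1000 ^ (p + 1) ≤ r ^ (p + 1)) &&
      decide ((r : ℚ) / 1000 * sh * d ≤ cc) && decide (1 ≤ th) && decide ((T : ℚ) / 1000000 * d ≤ cc * th)))

/-- On `[i / 100, i' / 100]` the chord from `i0 / 100`, summed to `jj / 100`, costs more than `KN`. -/
def rowCheck (p : ℕ) (cc : ℚ) (KN i : ℕ) (row : ℕ × ℕ × ℕ) : Bool :=
  withCap p i row.1 cc fun r G T =>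
  capOK p i row.1 cc r G T && decide (row.1 ≤ 100) && decide (i < row.1) && decide (row.2.1 < i) &&
  decide (row.2.1 ≤ row.2.2) && decide (row.2.2 ≤ i) && decide (T ≤ rootTab.getD row.2.1 0) &&
  decide (KN * (2 * (i - row.2.1)) * (100000000 * 1000000 ^ p) <
    (p + 1) * 10 ^ 30 * zsum p i row.2.1 T (row.2.2 - row.2.1))

/-- The rows cover `[i / 100, 1]`. -/
def rowsCheck (p : ℕ) (cc : ℚ) (KN : ℕ) : ℕ → List (ℕ × ℕ × ℕ) → Bool
  | i, [] => i == 100
  | i, row :: rs => rowCheck p cc KN i row && rowsCheck p cc KN row.1 rs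

/-- Every point clears the threshold when `k ≤ k₀`. -/
def midCheck (p : ℕ) (k0 : ℚ) (n : ℕ) (rows : List (ℕ × ℕ × ℕ)) : Bool :=
  force (crQ p * 10000000000).floor.toNat fun cN =>
  force ((((k0 / ((p : ℚ) + 1) + (k0 / ((p : ℚ) + 1)) ^ 2) * massQ (p + 1)) * 10 ^ 30).floor.toNat + 1)
    fun KN =>
  let c : ℚ := (cN : ℚ) / 10000000000
  decide (1 ≤ p) && decide (0 ≤ k0) && decide (k0 ≤ 1) && decide (c ≤ crQ p) &&
  decide ((k0 / ((p : ℚ) + 1) + (k0 / ((p : ℚ) + 1)) ^ 2) * massQ (p + 1) ≤ (KN : ℚ) / 1000000000000000000000000000000) &&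
  (List.range n).all (midCell p cN KN) && rowsCheck p (c - 1 / 1000000) KN (2 * n) rows

theorem rootTab_le {j : ℕ} (hj : j ≤ 100) : ((rootTab.getD j 0 : ℕ) : ℝ) / 1000000 ≤ semi ((j : ℝ) / 100) := by
  have h := (Bool.and_eq_true _ _).mp tabs_ok
  have h1 := List.all_eq_true.1 h.1 j (List.mem_range.2 (by omega))
  simp only [decide_eq_true_eq] at h1
  refine le_semi_of_sq ?_
  have : ((rootTab.getD j 0 : ℕ) : ℝ) ^ 2 + (j : ℝ) ^ 2 * 100000000 ≤ 1000000000000 := by exact_mod_cast h1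
  linarith

theorem topTab_ge {j : ℕ} (hj : j < 100) :
    1 ≤ ((topTab.getD j 0 : ℕ) / 1000000 : ℝ) ^ 2 + (((j : ℝ) / 100 + ((j : ℝ) + 1) / 100) / 2) ^ 2 := by
  have h := (Bool.and_eq_true _ _).mp tabs_ok
  have h1 := List.all_eq_true.1 h.2 j (List.mem_range.2 hj)
  simp only [decide_eq_true_eq] at h1
  have : (1000000000000 : ℝ) * 40000 ≤
      ((topTab.getD j 0 : ℕ) : ℝ) ^ 2 * 40000 + (2 * (j : ℝ) + 1) ^ 2 * 1000000000000 := by exact_mod_cast h1
  linarith

theorem zsum_le {p i i0 T : ℕ} (hf : IsProfile f) (hi0 : i0 < i) (hi : i ≤ 100)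
    (hT : T ≤ rootTab.getD i0 0) {t : ℝ} (hit : (i : ℝ) / 100 ≤ t) (ht : t < 1)
    (hft : (T : ℝ) / 1000000 ≤ f t) : ∀ n, i0 + n ≤ i →
    ((p : ℝ) + 1) * (zsum p i i0 T n : ℕ) / (2 * ((i : ℝ) - i0) * (100000000 * 1000000 ^ p)) ≤
      ∫ x in ((i0 : ℝ) / 100)..(((i0 : ℝ) + n) / 100), (f x ^ (p + 1) - semi x ^ (p + 1))
  | 0, _ => by simp [zsum]
  | n + 1, hn => by
    have hTs : (T : ℝ) / 1000000 ≤ (rootTab.getD i0 0 : ℕ) / 1000000 := by gcongr
    have hn' : ((i0 : ℝ) + n + 1) ≤ i := by exact_mod_cast (show i0 + n + 1 ≤ i by omega)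
    have h100 : (i : ℝ) ≤ 100 := by exact_mod_cast hi
    have hi0' : (i0 : ℝ) < i := by exact_mod_cast hi0
    have n0 : (0 : ℝ) ≤ n := Nat.cast_nonneg n
    have p0 : (0 : ℝ) ≤ i0 := Nat.cast_nonneg i0
    have hA : (0 : ℝ) < (topTab.getD (i0 + n) 0 : ℕ) / 1000000 := by
      have h := topTab_ge (j := i0 + n) (by omega)
      rcases Nat.eq_zero_or_pos (topTab.getD (i0 + n) 0) with h0 | h0
      · rw [h0] at h; push_cast at h; nlinarith
      · have : (0 : ℝ) < (topTab.getD (i0 + n) 0 : ℕ) := Nat.cast_pos.2 h0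
        positivity
    have hpc := chord_piece p hf (a := (i0 : ℝ) / 100) (u := (i : ℝ) / 100) (x0 := ((i0 : ℝ) + n) / 100)
      (x1 := ((i0 : ℝ) + n + 1) / 100) (r := (rootTab.getD (i0 + n + 1) 0 : ℕ) / 1000000)
      (A := (topTab.getD (i0 + n) 0 : ℕ) / 1000000)
      (by positivity) (by linarith) hit ht (rootTab_le (by omega)) hTs hft (by linarith) (by linarith)
      (by linarith) (by positivity) (by simpa using rootTab_le (j := i0 + n + 1) (by omega)) hA
      (by simpa using topTab_ge (j := i0 + n) (by omega))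
    have ih := zsum_le (p := p) hf hi0 hi hT hit ht hft n (by omega)
    have hm : ∀ a : ℝ, 0 ≤ a → a ≤ 1 → a ∈ Icc (-1 : ℝ) 1 := fun a h0 h1 => ⟨by linarith, h1⟩
    have hi1 := (int_pow hf (p + 1) (hm ((i0 : ℝ) / 100) (by positivity) (by linarith))
      (hm (((i0 : ℝ) + n) / 100) (by positivity) (by linarith))).sub (int_pow isProfile_semi (p + 1)
      (hm ((i0 : ℝ) / 100) (by positivity) (by linarith))
      (hm (((i0 : ℝ) + n) / 100) (by positivity) (by linarith)))
    have hi2 := (int_pow hf (p + 1) (hm (((i0 : ℝ) + n) / 100) (by positivity) (by linarith))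
      (hm (((i0 : ℝ) + n + 1) / 100) (by positivity) (by linarith))).sub (int_pow isProfile_semi (p + 1)
      (hm (((i0 : ℝ) + n) / 100) (by positivity) (by linarith))
      (hm (((i0 : ℝ) + n + 1) / 100) (by positivity) (by linarith)))
    push_cast
    rw [← add_assoc, ← intervalIntegral.integral_add_adjacent_intervals hi1 hi2, zsum, Nat.cast_add, mul_add,
      add_div]
    refine add_le_add ih (le_trans ?_ hpc)
    set S := ((rootTab.getD i0 0 : ℕ) : ℝ) with hS
    set A := ((topTab.getD (i0 + n) 0 : ℕ) : ℝ) with hA'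
    set R := ((rootTab.getD (i0 + n + 1) 0 : ℕ) : ℝ) with hR
    have hz : ((zterm p i i0 T (i0 + n) : ℕ) : ℝ) =
        max 0 (S * (2 * ((i : ℝ) - i0)) - (S - T) * (2 * (n : ℝ) + 1) - A * (2 * ((i : ℝ) - i0))) * R ^ p := by
      rw [zterm, Nat.cast_mul, Nat.cast_pow, show 2 * (i0 + n) + 1 - 2 * i0 = 2 * n + 1 by omega]
      congr 1
      rw [Nat.sub_sub]
      rcases le_total ((rootTab.getD i0 0 - T) * (2 * n + 1) + topTab.getD (i0 + n) 0 * (2 * (i - i0)))
        (rootTab.getD i0 0 * (2 * (i - i0))) with h | h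
      · have h' := (Nat.cast_le (α := ℝ)).2 h
        push_cast [hT, hi0.le] at h'
        rw [Nat.cast_sub h, max_eq_right (by linarith)]
        push_cast [hT, hi0.le]; ring
      · have h' := (Nat.cast_le (α := ℝ)).2 h
        push_cast [hT, hi0.le] at h'
        rw [Nat.sub_eq_zero_of_le h, Nat.cast_zero, max_eq_left (by linarith)]
    rw [hz]
    refine le_of_eq ?_
    have e : S / 1000000 - (S / 1000000 - T / 1000000) *
        ((((i0 : ℝ) + n) / 100 + ((i0 : ℝ) + n + 1) / 100) / 2 - i0 / 100) / ((i : ℝ) / 100 - i0 / 100) -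
        A / 1000000 = (S * (2 * ((i : ℝ) - i0)) - (S - T) * (2 * (n : ℝ) + 1) - A * (2 * ((i : ℝ) - i0))) /
        (2000000 * ((i : ℝ) - i0)) := by
      have : (i : ℝ) - i0 ≠ 0 := by linarith
      field_simp; ring
    rw [e, ← zero_div (2000000 * ((i : ℝ) - i0)), max_div_div_right (by linarith), zero_div, div_pow]
    have : (i : ℝ) - i0 ≠ 0 := by linarith
    field_simp; ring

theorem midCell_sound {p cN KN i : ℕ} (hp : 1 ≤ p) (hc : (cN : ℚ) / 10000000000 ≤ crQ p)
    (hok : midCell p cN KN i = true) (hf : IsProfile f) (hex : excess p f ≤ (KN : ℝ) / 10 ^ 30) {t : ℝ}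
    (ht : t ∈ Ioo (0 : ℝ) 1) (hti : (i : ℝ) / 50 ≤ t) (hti' : t ≤ ((i : ℝ) + 1) / 50) :
    gam p t (f t) ≤ -(1 / 2000000) * (f t ^ (p + 1) - semi t ^ (p + 1)) := by
  simp only [midCell, force_eq] at hok
  generalize min _ (20000 * i) = L at hok
  generalize midH p cN _ _ = H at hok
  generalize rootTab.getD (2 * i + 2) 0 = SL at hok
  generalize rootTab.getD (2 * i) 0 + 1 = SH at hok
  generalize sqrtStep (20000 * H) 40 _ + 1 = W0 at hok
  generalize sqrtStep (1000000000000 - _) 40 _ = V at hok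
  generalize min W0 _ = W at hok
  simp only [midCellOK, Bool.and_eq_true, decide_eq_true_eq, and_assoc] at hok
  obtain ⟨h1, h2, h3, h4, h5, h6, h7, h8, h9, h10, h11, h12, h13, h14, h15⟩ := hok
  have h1' : (SL : ℝ) ^ 2 + ((i : ℝ) + 1) ^ 2 * 400000000 ≤ 1000000000000 := by exact_mod_cast h1
  have h3' : (1000000000000 : ℝ) ≤ (SH : ℝ) ^ 2 + (i : ℝ) ^ 2 * 400000000 := by exact_mod_cast h3
  have h5' : (L : ℝ) ≤ 20000 * (i : ℝ) := by exact_mod_cast h5
  have h6' : (L : ℝ) ^ 2 * 100000000000000 ≤ 2 * (H : ℝ) * (SL : ℝ) ^ 3 := by exact_mod_cast h6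
  have h7' : ((i : ℝ) + 1) * 20000 + W < 1000000 := by exact_mod_cast h7
  have h8' : (V : ℝ) ^ 2 + (((i : ℝ) + 1) * 20000 + W) ^ 2 ≤ 1000000000000 := by exact_mod_cast h8
  have h9' : (W : ℝ) ^ 2 * 100000000000000 ≤ 2 * (H : ℝ) * (V : ℝ) ^ 3 := by exact_mod_cast h9
  have hSL : (0 : ℝ) < SL := Nat.cast_pos.2 h2
  have hSH : (0 : ℝ) < SH := Nat.cast_pos.2 h4
  have i0 : (0 : ℝ) ≤ i := Nat.cast_nonneg i
  have hlt : f t < semi t + (H : ℝ) / 100000000 := by
    refine lt_of_excess_two p hf ht.1.le hti' (by positivity) (b := ((i : ℝ) + 1) / 50)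
      (sl := (SL : ℝ) / 1000000) (wl := (L : ℝ) / 1000000) (wr := (W : ℝ) / 1000000)
      (u := (V : ℝ) / 1000000) (τ := ((i : ℝ) + 1) / 50 + (W : ℝ) / 1000000)
      (by linarith [(Nat.cast_nonneg W : (0 : ℝ) ≤ W)]) (by positivity) (le_semi_of_sq (by linarith))
      (by positivity) (by linarith) (by linarith) (by positivity)
      (Or.inr ⟨by linarith, by linarith⟩) (by positivity) (Or.inr (le_semi_of_sq (by linarith)))
      (by linarith) (hex.trans_lt ?_)
    have h : (KN : ℝ) * 3 * 1000000 ^ (p + 1) * 100000000 <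
        ((p : ℝ) + 1) * H * ((SL : ℝ) ^ p * L + (V : ℝ) ^ p * W) * 10 ^ 30 := by exact_mod_cast h10
    have e : ((p : ℝ) + 1) * ((H : ℝ) / 100000000) * (((SL : ℝ) / 1000000) ^ p * ((L : ℝ) / 1000000) +
        ((V : ℝ) / 1000000) ^ p * ((W : ℝ) / 1000000)) / 3 =
        ((p : ℝ) + 1) * H * ((SL : ℝ) ^ p * L + (V : ℝ) ^ p * W) / (3 * 1000000 ^ (p + 1) * 100000000) := by
      rw [div_pow, div_pow, pow_succ]; field_simp
    rw [e, div_lt_div_iff₀ (by positivity) (by positivity)]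
    linarith
  have hsl : (SL : ℝ) / 1000000 ≤ semi t := le_semi_of_sq (by
    have h' := pow_le_pow_left₀ ht.1.le hti' 2
    rw [div_pow] at h' ⊢; linarith)
  have hsh : semi t ≤ (SH : ℝ) / 1000000 := semi_le_of_sq (by positivity) (by
    have h' := pow_le_pow_left₀ (show (0 : ℝ) ≤ (i : ℝ) / 50 by positivity) hti 2
    rw [div_pow] at h' ⊢; linarith)
  refine gam_margin_cell (c := (cN : ℝ) / 10000000000) (h := (H : ℝ) / 100000000)
    (sl := (SL : ℝ) / 1000000) (sh := (SH : ℝ) / 1000000) (s0 := ((SL : ℝ) + SH) / 2000000)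
    hp ⟨by linarith [ht.1], ht.2⟩ (hf.2.2 t ⟨by linarith [ht.1], ht.2⟩) hlt (by positivity) hsl hsh
    (by positivity) (by positivity)
    ((le_of_eq (by push_cast; rfl)).trans ((Rat.cast_le.2 hc).trans (crQ_le p))) ?_ ?_ ?_ ?_
  · have : (9 : ℝ) * p * H ≤ 200 * SL := by exact_mod_cast h11
    linarith
  · have : (100 : ℝ) * SH + H ≤ 200000000 := by exact_mod_cast h12
    linarith
  · have : (18 : ℝ) * cN * ((p : ℝ) + 1) * 1000000000000000000 + ((p : ℝ) + 2) * SH ^ 2 * 200000000000 * SL ≤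
        3 * ((p : ℝ) + 1) * 200000000000000000000000 * SL := by exact_mod_cast h13
    field_simp
    linarith
  · rintro s (rfl | rfl)
    · have h : (12 : ℝ) * ((p : ℝ) + 1) * 10000000000000000000000 * SL * SH +
          ((p : ℝ) + 2) * ((SL : ℝ) + SH) ^ 3 * 10000000000 * SH +
          1200 * ((p : ℝ) + 1) * 1000000000000000000 * SH * H + 8 * ((p : ℝ) + 1) * 10000000000000000000000 * SH ≤
          8 * ((p : ℝ) + 1) * 1000000000000000000 * cN * SH +
          3 * ((p : ℝ) + 2) * ((SL : ℝ) + SH) ^ 2 * SL * 10000000000 * SH +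
          400 * ((p : ℝ) + 2) * (SL : ℝ) ^ 2 * 1000000 * H * SH +
          36 * ((p : ℝ) + 1) * cN * H * 1000000000000000 := by exact_mod_cast h14
      field_simp
      linarith
    · have h : (12 : ℝ) * ((p : ℝ) + 1) * 10000000000000000000000 * SH * SH +
          ((p : ℝ) + 2) * ((SL : ℝ) + SH) ^ 3 * 10000000000 * SH +
          1200 * ((p : ℝ) + 1) * 1000000000000000000 * SH * H + 8 * ((p : ℝ) + 1) * 10000000000000000000000 * SH ≤
          8 * ((p : ℝ) + 1) * 1000000000000000000 * cN * SH +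
          3 * ((p : ℝ) + 2) * ((SL : ℝ) + SH) ^ 2 * SH * 10000000000 * SH +
          400 * ((p : ℝ) + 2) * (SL : ℝ) ^ 2 * 1000000 * H * SH +
          36 * ((p : ℝ) + 1) * cN * H * 1000000000000000 := by exact_mod_cast h15
      field_simp
      linarith

theorem rowCheck_sound {p KN i : ℕ} {c : ℚ} {row : ℕ × ℕ × ℕ} (hp : 1 ≤ p) (hc : c ≤ crQ p)
    (hok : rowCheck p (c - 1 / 1000000) KN i row = true) (hf : IsProfile f)
    (hex : excess p f ≤ (KN : ℝ) / 10 ^ 30) {t : ℝ} (ht : t ∈ Ioo (0 : ℝ) 1)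
    (hti : (i : ℝ) / 100 ≤ t) (hti' : t ≤ (row.1 : ℝ) / 100) :
    gam p t (f t) ≤ -(1 / 2000000) * (f t ^ (p + 1) - semi t ^ (p + 1)) := by
  obtain ⟨r, G, T, hok⟩ := of_withCap hok
  simp only [Bool.and_eq_true, decide_eq_true_eq, and_assoc] at hok
  obtain ⟨hcap, hi'100, hii', hi0, hjj, hjji, hT, hsum⟩ := hok
  have htI : t ∈ Ioo (-1 : ℝ) 1 := ⟨by linarith [ht.1], ht.2⟩
  have hlt : f t ≤ (T : ℝ) / 1000000 := by
    by_contra hgt
    push Not at hgt
    have hz := zsum_le (p := p) hf hi0 (by omega) hT hti ht.2 hgt.le (row.2.2 - row.2.1) (by omega)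
    have e : (row.2.1 : ℝ) + ((row.2.2 - row.2.1 : ℕ) : ℝ) = row.2.2 := by
      rw [Nat.cast_sub hjj]; ring
    rw [e] at hz
    have h01 : (1 : ℝ) ∈ Icc (-1 : ℝ) 1 := by norm_num
    have h00 : (0 : ℝ) ∈ Icc (-1 : ℝ) 1 := by norm_num
    have hint := (int_pow hf (p + 1) h00 h01).sub (int_pow isProfile_semi (p + 1) h00 h01)
    have hj100 : (row.2.2 : ℝ) ≤ 100 := by exact_mod_cast (show row.2.2 ≤ 100 by omega)
    have hle : ∫ x in ((row.2.1 : ℝ) / 100)..((row.2.2 : ℝ) / 100), (f x ^ (p + 1) - semi x ^ (p + 1)) ≤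
        excess p f := by
      refine (intervalIntegral.integral_mono_interval (show (0 : ℝ) ≤ (row.2.1 : ℝ) / 100 by positivity)
        (by gcongr) (show (row.2.2 : ℝ) / 100 ≤ 1 by linarith) ?_ hint).trans (le_of_eq ?_)
      · refine (ae_restrict_iff' measurableSet_Ioc).2 ?_
        filter_upwards [compl_mem_ae_iff.2 (measure_singleton (1 : ℝ))] with x h1x hx
        exact sub_nonneg.2 (pow_le_pow_left₀ (Real.sqrt_nonneg _)
          (hf.2.2 x ⟨by linarith [hx.1], lt_of_le_of_ne hx.2 h1x⟩) _)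
      · rw [intervalIntegral.integral_sub (int_pow hf _ h00 h01) (int_pow isProfile_semi _ h00 h01)]; rfl
    have hsum' := (Nat.cast_lt (α := ℝ)).2 hsum
    push_cast [Nat.cast_sub hi0.le] at hsum'
    have hD : (0 : ℝ) < 2 * ((i : ℝ) - row.2.1) * (100000000 * 1000000 ^ p) := by
      have : (row.2.1 : ℝ) < i := by exact_mod_cast hi0
      positivity [sub_pos.2 this]
    rw [div_le_iff₀ hD] at hz
    have := mul_le_mul_of_nonneg_right (hle.trans hex) hD.le
    rw [div_mul_eq_mul_div, le_div_iff₀ (by positivity)] at this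
    nlinarith [mul_le_mul_of_nonneg_right hz (show (0 : ℝ) ≤ 10 ^ 30 by positivity)]
  have hc' : (c : ℝ) ≤ cr p := (Rat.cast_le.2 hc).trans (crQ_le p)
  have hfs := hf.2.2 t htI
  simp only [capOK, Bool.and_eq_true, Bool.or_eq_true, decide_eq_true_eq, and_assoc] at hcap
  obtain ⟨hT2, hpl | ⟨hsh, hr, hr2, hG, hgeom, h1, hθ, h2⟩⟩ := hcap
  · refine gam_margin_line (c := (c : ℝ)) hp ht hti' hfs hlt ?_ hc' ?_
    · rw [div_le_iff₀ (by norm_num)]; exact_mod_cast (show T ≤ 2 * 1000000 by omega)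
    · have := (Rat.cast_le (K := ℝ)).2 hpl
      simp only [bQ] at this; push_cast at this; exact this
  generalize rootTab.getD i 0 = R at hsh hr2 h1
  clear hsum hex hT
  refine gam_margin_cap (c := (c : ℝ)) (T := (T : ℝ) / 1000000) (v := (row.1 : ℝ) / 100)
    (sh := ((R : ℝ) + 1 : ℝ) / 1000000) (r := (r : ℝ) / 1000) (G := (G : ℝ))
    hp ht hti' ?_ hfs hlt ?_ hc' ?_ ?_ (Nat.cast_pos.2 hG) ?_ ?_ ?_ ?_
  · refine (semi_le_of_sq (x := ((R : ℝ) + 1 : ℝ) / 1000000) (by positivity) ?_)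
    have : (1000000000000 : ℝ) ≤ ((R : ℝ) + 1 : ℝ) ^ 2 + (i : ℝ) ^ 2 * 100000000 := by
      exact_mod_cast hsh
    have h' := pow_le_pow_left₀ (show (0 : ℝ) ≤ (i : ℝ) / 100 by positivity) hti 2
    rw [div_pow] at h' ⊢
    linarith
  · rw [div_le_iff₀ (by norm_num)]; exact_mod_cast (show T ≤ 2 * 1000000 by omega)
  · rw [lt_div_iff₀ (by norm_num)]; exact_mod_cast (show 1 * 1000 < r by omega)
  · have : (r : ℝ) * ((R : ℝ) + 1) ≤ 2000000000 := by exact_mod_cast hr2
    linarith
  · have h : ((G * (r - 1000) * 1000 ^ p + 1000 ^ (p + 1) : ℕ) : ℝ) ≤ ((r ^ (p + 1) : ℕ) : ℝ) :=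
      Nat.cast_le.2 hgeom
    push_cast [Nat.cast_sub hr.le] at h
    rw [div_pow, le_sub_iff_add_le, le_div_iff₀ (by positivity), pow_succ (1000 : ℝ)]
    rw [pow_succ (1000 : ℝ)] at h
    linarith
  · have := (Rat.cast_le (K := ℝ)).2 h1
    simp only [bQ] at this; push_cast at this; exact this
  · have := (Rat.cast_le (K := ℝ)).2 hθ
    push_cast at this; exact this
  · have := (Rat.cast_le (K := ℝ)).2 h2
    simp only [bQ] at this; push_cast at this; exact this

theorem rowsCheck_sound {p KN : ℕ} {c : ℚ} (hp : 1 ≤ p) (hc : c ≤ crQ p) (hf : IsProfile f)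
    (hex : excess p f ≤ (KN : ℝ) / 10 ^ 30) {t : ℝ} (ht : t ∈ Ioo (0 : ℝ) 1) :
    ∀ (rows : List (ℕ × ℕ × ℕ)) (i : ℕ), rowsCheck p (c - 1 / 1000000) KN i rows = true →
      (i : ℝ) / 100 ≤ t → gam p t (f t) ≤ -(1 / 2000000) * (f t ^ (p + 1) - semi t ^ (p + 1))
  | [], i, h, hi => by
    simp only [rowsCheck, beq_iff_eq] at h
    subst h; push_cast at hi; linarith [ht.2]
  | row :: rs, i, h, hi => by
    simp only [rowsCheck, Bool.and_eq_true] at h
    rcases le_total t ((row.1 : ℝ) / 100) with h' | h'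
    · exact rowCheck_sound hp hc h.1 hf hex ht hi h'
    · exact rowsCheck_sound hp hc hf hex ht rs row.1 h.2 h'

/-- The bound from the check. -/
theorem hasBound_of_midCheck {p n : ℕ} {k0 : ℚ} {rows : List (ℕ × ℕ × ℕ)}
    (hok : midCheck p k0 n rows = true) {J k : ℝ}
    (hJ : J ≤ exp (k / ((p : ℝ) + 1)) * (2 * mass (p + 1) semi 1)) (hk : k ≤ (k0 : ℝ)) :
    HasBound p J := by
  simp only [midCheck, force_eq, Bool.and_eq_true, decide_eq_true_eq, and_assoc] at hok
  generalize (crQ p * 10000000000).floor.toNat = cN at hok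
  generalize (_ : ℤ).toNat + 1 = KN at hok
  obtain ⟨hp, hk00, hk01, hc, hK, hcells, hrows⟩ := hok
  refine ⟨wgt p, 0, 0, by unfold wgt; positivity, le_rfl, le_rfl, fun f hf hfJ hmix =>
    profileBound_pointwise hp (by norm_num : (0 : ℝ) < 1 / 2000000) hf hmix rfl rfl rfl
      fun _ t ht => ?_⟩
  rw [integral_even hf] at hfJ
  set y := (k0 : ℝ) / ((p : ℝ) + 1) with hy
  have hy0 : 0 ≤ y := by rw [hy]; exact div_nonneg (by exact_mod_cast hk00) (by positivity)
  have hy1 : y ≤ 1 := by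
    rw [hy, div_le_one (by positivity)]
    linarith [(show (k0 : ℝ) ≤ 1 by exact_mod_cast hk01), (Nat.cast_nonneg p : (0 : ℝ) ≤ p)]
  have hex : excess p f ≤ (((k0 / ((p : ℚ) + 1) + (k0 / ((p : ℚ) + 1)) ^ 2) * massQ (p + 1) : ℚ) : ℝ) := by
    push_cast
    rw [← hy]
    have hexp : exp (k / ((p : ℝ) + 1)) ≤ 1 + (y + y ^ 2) := by
      refine (exp_le_exp.2 (div_le_div_of_nonneg_right hk (by positivity))).trans ?_
      have := abs_exp_sub_one_sub_id_le (x := y) (by rwa [abs_of_nonneg hy0])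
      rw [abs_le] at this
      linarith [this.2]
    have h1 := hJ.trans' hfJ.le
    have hP := mass_one_pos isProfile_semi (p + 1)
    have h2 := mul_le_mul_of_nonneg_right hexp hP.le
    have h3 := mul_le_mul_of_nonneg_left (massQ_ge (p + 1)) (show 0 ≤ y + y ^ 2 by positivity)
    rw [excess]
    linarith
  replace hex : excess p f ≤ (((KN : ℚ) / 1000000000000000000000000000000 : ℚ) : ℝ) := hex.trans (Rat.cast_le.2 hK)
  by_cases htn : t ≤ (n : ℝ) / 50
  · have hpos : 0 < t * 50 := by linarith [ht.1]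
    obtain ⟨i, hi⟩ : ∃ i, ⌈t * 50⌉₊ = i + 1 :=
      ⟨⌈t * 50⌉₊ - 1, (Nat.succ_pred_eq_of_pos (Nat.ceil_pos.2 hpos)).symm⟩
    have hin : i < n := by
      have : ⌈t * 50⌉₊ ≤ n := Nat.ceil_le.2 (by linarith)
      omega
    have h1 := Nat.le_ceil (t * 50)
    have h2 := Nat.ceil_lt_add_one hpos.le
    rw [hi] at h1 h2
    push_cast at h1 h2
    exact midCell_sound hp hc (List.all_eq_true.1 hcells i (List.mem_range.2 hin)) hf (hex.trans_eq (by norm_num)) ht
      (by linarith) (by linarith)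
  · refine rowsCheck_sound hp hc hf (hex.trans_eq (by norm_num)) ht rows (2 * n) hrows ?_
    push_cast; linarith

end Vale.Agent.P237.All.Transport.Tiny
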