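import Vale.Agent.P237.All.Tiny.SmallStep

/-!
P237, dimensions thirty to ninety-nine, small excess: a value above the threshold puts the profile
above a chord, which costs mass; the margin below the threshold.
-/

noncomputable section

open MeasureTheory Set Real intervalIntegral

namespace Vale.Agent.P237.All.Transport.Tiny

variable {f : ℝ → ℝ}

/-- Left of a value `T` at some `t ≥ u` a profile is above the chord through `(a, sA)` and `(u, T)`. -/
theorem chord_below (hf : IsProfile f) {a u t T sA x : ℝ} (ha : 0 ≤ a) (hau : a < u) (hut : u ≤ t)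
    (ht : t < 1) (hsA : sA ≤ semi a) (hTs : T ≤ sA) (hft : T ≤ f t) (hx : x ∈ Icc a u) :
    sA - (sA - T) * (x - a) / (u - a) ≤ f x := by
  have hta : 0 < t - a := by linarith
  set l := (x - a) / (t - a) with hl
  have hl0 : 0 ≤ l := div_nonneg (sub_nonneg.2 hx.1) hta.le
  have hl1 : l ≤ 1 := (div_le_one hta).2 (by linarith [hx.2])
  have hlu : l ≤ (x - a) / (u - a) := div_le_div_of_nonneg_left (sub_nonneg.2 hx.1) (sub_pos.2 hau) (by linarith)
  have ha1 : a ∈ Ioo (-1 : ℝ) 1 := ⟨by linarith, by linarith⟩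
  have hconc := hf.1.2 ha1 (show t ∈ Ioo (-1 : ℝ) 1 from ⟨by linarith, ht⟩) (sub_nonneg.2 hl1) hl0 (by ring)
  simp only [smul_eq_mul] at hconc
  rw [show (1 - l) * a + l * t = x by rw [hl]; field_simp; ring] at hconc
  refine le_trans ?_ hconc
  have h1 := mul_le_mul_of_nonneg_left (hsA.trans (hf.2.2 a ha1)) (sub_nonneg.2 hl1)
  have h2 := mul_le_mul_of_nonneg_left hft hl0
  have h3 := mul_le_mul_of_nonneg_left hlu (sub_nonneg.2 hTs)
  rw [mul_div_assoc]
  linarith

/-- The mass above the semicircle on one interval under the chord. -/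
theorem chord_piece (p : ℕ) (hf : IsProfile f) {a u t T sA x0 x1 r A : ℝ} (ha : 0 ≤ a) (hau : a < u)
    (hut : u ≤ t) (ht : t < 1) (hsA : sA ≤ semi a) (hTs : T ≤ sA) (hft : T ≤ f t) (h0 : a ≤ x0)
    (h01 : x0 ≤ x1) (h1 : x1 ≤ u) (hr0 : 0 ≤ r) (hr : r ≤ semi x1) (hA0 : 0 < A)
    (hA : 1 ≤ A ^ 2 + ((x0 + x1) / 2) ^ 2) :
    (x1 - x0) * (((p : ℝ) + 1) * r ^ p *
        max 0 (sA - (sA - T) * ((x0 + x1) / 2 - a) / (u - a) - A)) ≤
      ∫ x in x0..x1, (f x ^ (p + 1) - semi x ^ (p + 1)) := by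
  set μ := (x0 + x1) / 2 with hμ
  set α := sA - (sA - T) * (μ - a) / (u - a) - A with hα
  have hI : ∀ x ∈ Icc x0 x1, x ∈ Ioo (-1 : ℝ) 1 := fun x hx => ⟨by linarith [hx.1], by linarith [hx.2]⟩
  have hm0 : x0 ∈ Icc (-1 : ℝ) 1 := ⟨by linarith, by linarith⟩
  have hm1 : x1 ∈ Icc (-1 : ℝ) 1 := ⟨by linarith, by linarith⟩
  have hi := (int_pow hf (p + 1) hm0 hm1).sub (int_pow isProfile_semi (p + 1) hm0 hm1)
  have hpt : ∀ x ∈ Icc x0 x1,
      ((p : ℝ) + 1) * r ^ p * (f x - semi x) ≤ f x ^ (p + 1) - semi x ^ (p + 1) := by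
    intro x hx
    have hxI := hI x hx
    have hs := semi_pos hxI
    have hfx := hf.2.2 x hxI
    have hrs : r ≤ semi x :=
      hr.trans (Real.sqrt_le_sqrt (by nlinarith [pow_le_pow_left₀ (show 0 ≤ x by linarith [hx.1]) hx.2 2]))
    obtain ⟨d, hd0, hd⟩ : ∃ d, 0 ≤ d ∧ f x = semi x * (1 + d) :=
      ⟨f x / semi x - 1, sub_nonneg.2 ((one_le_div hs).2 hfx), by field_simp; ring⟩
    have hb := one_add_mul_le_pow (show (-2 : ℝ) ≤ d by linarith) (p + 1)
    push_cast at hb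
    have h2 := mul_le_mul_of_nonneg_right (pow_le_pow_left₀ hr0 hrs p)
      (show 0 ≤ ((p : ℝ) + 1) * (f x - semi x) by positivity [sub_nonneg.2 hfx])
    have h3 := mul_le_mul_of_nonneg_left hb (show 0 ≤ semi x ^ (p + 1) by positivity)
    have e : semi x ^ p * (((p : ℝ) + 1) * (f x - semi x)) = semi x ^ (p + 1) * (((p : ℝ) + 1) * d) := by
      rw [hd, pow_succ]; ring
    have e' : f x ^ (p + 1) = semi x ^ (p + 1) * (1 + d) ^ (p + 1) := by rw [hd, mul_pow]
    linarith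
  rcases le_total α 0 with hα0 | hα0
  · rw [max_eq_left hα0, mul_zero, mul_zero]
    refine integral_nonneg h01 fun x hx => sub_nonneg.2 ?_
    exact pow_le_pow_left₀ (Real.sqrt_nonneg _) (hf.2.2 x (hI x hx)) _
  rw [max_eq_right hα0]
  set β := μ / A - (sA - T) / (u - a) with hβ
  have hlow : ∀ x ∈ Icc x0 x1,
      ((p : ℝ) + 1) * r ^ p * (α + β * (x - μ)) ≤ f x ^ (p + 1) - semi x ^ (p + 1) := by
    intro x hx
    refine le_trans (mul_le_mul_of_nonneg_left ?_ (by positivity)) (hpt x hx)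
    have hc := chord_below hf ha hau hut ht hsA hTs hft (x := x) ⟨h0.trans hx.1, hx.2.trans h1⟩
    have hsq : semi x ≤ A - μ / A * (x - μ) := by
      have hs2 : semi x ^ 2 = 1 - x ^ 2 := semi_sq (Ioo_subset_Icc_self (hI x hx))
      have e : A - μ / A * (x - μ) = (2 * A ^ 2 - 2 * μ * (x - μ)) / (2 * A) := by field_simp
      rw [e, le_div_iff₀ (by positivity)]
      nlinarith [sq_nonneg (semi x - A), sq_nonneg (x - μ)]
    have e2 : sA - (sA - T) * (x - a) / (u - a) - (A - μ / A * (x - μ)) = α + β * (x - μ) := by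
      rw [hα, hβ]; ring
    linarith
  have hcalc : ∫ x in x0..x1, ((p : ℝ) + 1) * r ^ p * (α + β * (x - μ)) =
      (x1 - x0) * (((p : ℝ) + 1) * r ^ p * α) := by
    rw [intervalIntegral.integral_const_mul, intervalIntegral.integral_add
      (Continuous.intervalIntegrable (by fun_prop) _ _) (Continuous.intervalIntegrable (by fun_prop) _ _),
      intervalIntegral.integral_const, intervalIntegral.integral_const_mul,
      intervalIntegral.integral_sub (Continuous.intervalIntegrable (by fun_prop) _ _)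
        (Continuous.intervalIntegrable (by fun_prop) _ _), integral_id, intervalIntegral.integral_const]
    rw [hμ]; simp only [smul_eq_mul]; ring
  rw [← hcalc]
  exact intervalIntegral.integral_mono_on h01 (Continuous.intervalIntegrable (by fun_prop) _ _) hi hlow

/-- Under a cap `T` the margin holds, by a factor `θ` where `x` is large against the semicircle. -/
theorem gam_margin_cap {p : ℕ} (hp : 1 ≤ p) {t x c T v sh r G : ℝ} (ht : t ∈ Ioo (0 : ℝ) 1)
    (htv : t ≤ v) (hsh : semi t ≤ sh) (hx : semi t ≤ x) (hxT : x ≤ T) (hT : T ≤ 2)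
    (hc : c ≤ cr p) (hr1 : 1 < r) (hr2 : r * sh ≤ 2) (hG : 0 < G)
    (hgeom : G * (r - 1) ≤ r ^ (p + 1) - 1)
    (h1 : r * sh * (1 - 1 / (2 * ((p : ℝ) + 1)) + ((p : ℝ) + 2) / (2 * ((p : ℝ) + 1)) * v ^ 2) ≤
      c - 1 / 1000000)
    (hθ : 1 ≤ ((p : ℝ) + 1) / p * (1 - 1 / G))
    (h2 : T * (1 - 1 / (2 * ((p : ℝ) + 1)) + ((p : ℝ) + 2) / (2 * ((p : ℝ) + 1)) * v ^ 2) ≤
      (c - 1 / 1000000) * (((p : ℝ) + 1) / p * (1 - 1 / G))) :
    gam p t x ≤ -(1 / 2000000) * (x ^ (p + 1) - semi t ^ (p + 1)) := by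
  have htI : t ∈ Ioo (-1 : ℝ) 1 := ⟨by linarith [ht.1], ht.2⟩
  have hs := semi_pos htI
  have hx0 : 0 < x := hs.trans_le hx
  rcases le_total x (r * sh) with hxr | hxr
  · exact gam_margin_line hp ht htv hx hxr hr2 hc h1
  have hp0 : (0 : ℝ) < p := Nat.cast_pos.2 (by omega)
  set θ := ((p : ℝ) + 1) / p * (1 - 1 / G) with hθD
  set R := x / semi t with hR
  have hRr : r ≤ R := by
    rw [hR, le_div_iff₀ hs]
    exact (mul_le_mul_of_nonneg_left hsh (by linarith)).trans hxr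
  have hsum : G ≤ ∑ i ∈ Finset.range (p + 1), R ^ i := by
    refine le_trans ?_ (Finset.sum_le_sum fun i _ => pow_le_pow_left₀ (by linarith) hRr i)
    exact le_of_mul_le_mul_right (by rw [geom_sum_mul]; exact hgeom) (by linarith)
  have hg := gam_le_of hp htI hx (θ := θ) (by
    rw [← hR, ← geom_sum_mul R (p + 1),
      show R * (R ^ p - 1) = (R ^ (p + 1) - 1) - (R - 1) by rw [pow_succ]; ring, ← geom_sum_mul R (p + 1)]
    have e : (p : ℝ) * θ = ((p : ℝ) + 1) - ((p : ℝ) + 1) / G := by rw [hθD]; field_simp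
    rw [e]
    have : (((p : ℝ) + 1) / G) * G ≤ ((p : ℝ) + 1) / G * ∑ i ∈ Finset.range (p + 1), R ^ i :=
      mul_le_mul_of_nonneg_left hsum (by positivity)
    rw [div_mul_cancel₀ _ hG.ne'] at this
    nlinarith [mul_le_mul_of_nonneg_right this (show 0 ≤ R - 1 by linarith)])
  refine hg.trans (mul_le_mul_of_nonneg_right ?_ (sub_nonneg.2 (pow_le_pow_left₀ hs.le hx _)))
  have hd : den p t - mu p = 1 - 1 / (2 * ((p : ℝ) + 1)) + ((p : ℝ) + 2) / (2 * ((p : ℝ) + 1)) * t ^ 2 := by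
    rw [den]; field_simp; ring
  have hd0 : 0 ≤ den p t - mu p := by
    rw [hd]
    have : 1 / (2 * ((p : ℝ) + 1)) ≤ 1 := by rw [div_le_one (by positivity)]; linarith
    positivity
  have hdv : den p t - mu p ≤ 1 - 1 / (2 * ((p : ℝ) + 1)) + ((p : ℝ) + 2) / (2 * ((p : ℝ) + 1)) * v ^ 2 := by
    rw [hd]; gcongr; exact ht.1.le
  have h3 := (mul_le_mul hxT hdv hd0 (hx0.le.trans hxT)).trans h2
  have h4 := mul_le_mul_of_nonneg_right hc (show 0 ≤ θ by linarith)
  rw [sub_le_iff_le_add, le_neg_add_iff_add_le, le_div_iff₀ hx0]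
  linarith

end Vale.Agent.P237.All.Transport.Tiny
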