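import Vale.Agent.P237.All.Tiny.Threshold

/-!
P237, every dimension, tiny excess: a comparison point chosen by the excess, and the tail beyond it
(`notes/P237h8/tiny-k-02Dec.md`).
-/

noncomputable section

open MeasureTheory Set Real intervalIntegral

namespace Vale.Agent.P237.All.Transport.Tiny

variable {f : ℝ → ℝ}

/-- The exponential against the ninth power. -/
theorem exp_le_pow_nine {T : ℝ} (hT : 0 < T) :
    exp (-(18 / (5 * T) + 54 / 5)) ≤ T ^ 9 / 40000 := by
  have h1 : 2 / (5 * T) ≤ exp (2 / (5 * T) - 1) := by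
    linarith [Real.add_one_le_exp (2 / (5 * T) - 1)]
  have h2 := pow_le_pow_left₀ (show 0 ≤ 2 / (5 * T) by positivity) h1 9
  rw [← Real.exp_nat_mul, div_pow, mul_pow] at h2
  have h3 : (271 / 100 : ℝ) ^ 19 ≤ exp (99 / 5) := by
    refine le_trans ?_ (exp_le_exp.2 (show ((19 : ℕ) : ℝ) * 1 ≤ 99 / 5 by norm_num))
    rw [Real.exp_nat_mul]
    exact pow_le_pow_left₀ (by norm_num) (by linarith [Real.exp_one_gt_d9]) _
  rw [Real.exp_neg, inv_le_comm₀ (exp_pos _) (by positivity), inv_div]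
  rw [show 18 / (5 * T) + 54 / 5 = ((9 : ℕ) : ℝ) * (2 / (5 * T) - 1) + 99 / 5 by push_cast; ring,
    Real.exp_add]
  refine le_trans ?_ (mul_le_mul h2 h3 (by positivity) (exp_pos _).le)
  rw [div_mul_eq_mul_div, div_le_div_iff₀ (by positivity) (by positivity)]
  have : 0 < T ^ 9 := pow_pos hT 9
  norm_num
  linarith

theorem drop_ge {T : ℝ} (hT0 : 0 < T) (hT : T ≤ 11 / 25) :
    T ^ 3 * (3 / 5 + 9 / 5 * T) ≤ semi T - (topVal T - slopeLow T * ((3 / 5 + 2 * T) * T ^ 2)) := by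
  refine le_trans ?_ (sub_le_sub_right (semi_ge_sextic hT0.le hT) _)
  unfold topVal slopeLow
  have hk : ∀ n : ℕ, T ^ (n + 1) ≤ 11 / 25 * T ^ n := fun n => by
    rw [pow_succ, mul_comm]; exact mul_le_mul_of_nonneg_right hT (pow_nonneg hT0.le n)
  linarith [hk 4, hk 5, pow_pos hT0 4, pow_pos hT0 5, pow_pos hT0 6]

theorem topVal_line_nonneg {T : ℝ} (hT0 : 0 < T) (hT : T ≤ 11 / 25) :
    0 ≤ topVal T - slopeLow T * ((3 / 5 + 2 * T) * T ^ 2) := by
  have h1 : slopeLow T ≤ 1 / 2 := by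
    unfold slopeLow
    nlinarith [pow_le_pow_left₀ hT0.le hT 3]
  have h2 : (3 / 5 + 2 * T) * T ^ 2 ≤ 3 / 10 := by
    nlinarith [pow_le_pow_left₀ hT0.le hT 2, pow_le_pow_left₀ hT0.le hT 3]
  have h3 := mul_le_mul_of_nonneg_right h1 (show 0 ≤ (3 / 5 + 2 * T) * T ^ 2 by positivity)
  have h4 : 4 / 5 ≤ topVal T := by
    unfold topVal
    nlinarith [pow_le_pow_left₀ hT0.le hT 2, pow_le_pow_left₀ hT0.le hT 4, pow_nonneg hT0.le 5]
  linarith

/-- The tail is negligible against the excess. -/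
theorem tail_num {p : ℕ} (hp : 29 ≤ p) {T : ℝ} (hT0 : 0 < T) (hT : T ≤ 11 / 25)
    (hm : 6 ≤ ((p : ℝ) + 1) * T ^ 4) :
    (3 / 2 + mu p) * ((topVal T - slopeLow T * ((3 / 5 + 2 * T) * T ^ 2)) ^ (p + 2) /
        (((p : ℝ) + 2) * slopeLow T)) < mu p * bumpBound p T (bumpH T) := by
  set L := topVal T - slopeLow T * ((3 / 5 + 2 * T) * T ^ 2)
  have hL0 : 0 ≤ L := topVal_line_nonneg hT0 hT
  have hs := semi_pos (t := T) ⟨by linarith, by linarith⟩
  have hS1 : semi T ≤ 1 := Real.sqrt_le_one.2 (by linarith [sq_nonneg T])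
  have hm0 : (30 : ℝ) ≤ (p : ℝ) + 1 := by
    have : (29 : ℝ) ≤ p := by exact_mod_cast hp
    linarith
  have hdrop := drop_ge hT0 hT
  have hX : 18 / (5 * T) + 54 / 5 ≤ ((p : ℝ) + 2) * (semi T - L) := by
    refine le_trans ?_ (mul_le_mul_of_nonneg_left hdrop (by positivity))
    have e : 18 / (5 * T) + 54 / 5 = 6 / T ^ 4 * (T ^ 3 * (3 / 5 + 9 / 5 * T)) := by
      field_simp; ring
    rw [e]
    exact mul_le_mul_of_nonneg_right (by rw [div_le_iff₀ (pow_pos hT0 4)]; nlinarith [pow_pos hT0 4])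
      (by positivity)
  -- the power of the line
  have hpow : L ^ (p + 2) ≤ semi T ^ (p + 2) * (T ^ 9 / 40000) := by
    have h1 : L ≤ semi T * exp (-(semi T - L)) := by
      have h2 := mul_le_mul_of_nonneg_left (Real.add_one_le_exp (-(semi T - L))) hs.le
      have h3 : 0 ≤ semi T - L := le_trans (by positivity) hdrop
      nlinarith [mul_le_mul_of_nonneg_right hS1 h3]
    refine (pow_le_pow_left₀ hL0 h1 _).trans ?_
    rw [mul_pow, ← Real.exp_nat_mul]
    refine mul_le_mul_of_nonneg_left ((exp_le_exp.2 ?_).trans (exp_le_pow_nine hT0)) (by positivity)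
    push_cast
    linarith
  have hsig : 9 / 10 * T ≤ slopeLow T := by
    unfold slopeLow
    nlinarith [pow_pos hT0 3]
  have hsig0 : 0 < slopeLow T := lt_of_lt_of_le (by positivity) hsig
  have hS3 : 18 / 25 ≤ semi T ^ 3 := by
    have h2 : (8064 / 10000 : ℝ) ≤ semi T ^ 2 := by
      rw [semi_sq ⟨by linarith, by linarith⟩]; nlinarith
    have h1 : (897 / 1000 : ℝ) ≤ semi T :=
      (pow_le_pow_iff_left₀ (by norm_num) hs.le two_ne_zero).1 (le_trans (by norm_num) h2)
    calc (18 / 25 : ℝ) ≤ 8064 / 10000 * (897 / 1000) := by norm_num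
      _ ≤ semi T ^ 2 * semi T := mul_le_mul h2 h1 (by norm_num) (by positivity)
      _ = _ := by ring
  have hroot : 2 / 5 * T ^ 3 ≤ √(2 * bumpH T * semi T ^ 3) := by
    refine Real.le_sqrt_of_sq_le ?_
    rw [bumpH]
    nlinarith [mul_le_mul_of_nonneg_left hS3 (pow_pos hT0 5).le,
      mul_le_mul_of_nonneg_left hT (pow_pos hT0 5).le]
  have hμ : mu p ≤ 1 / 100 := by
    rw [mu, div_le_div_iff₀ (by positivity) (by norm_num)]; nlinarith
  -- assemble
  have hL1 : (3 / 2 + mu p) * (L ^ (p + 2) / (((p : ℝ) + 2) * slopeLow T)) ≤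
      151 / 100 * (semi T ^ p * (T ^ 9 / 40000) / (((p : ℝ) + 1) * (9 / 10 * T))) := by
    refine mul_le_mul (by linarith) ?_ (div_nonneg (pow_nonneg hL0 _) (by positivity)) (by norm_num)
    refine div_le_div₀ (by positivity) (hpow.trans ?_) (by positivity)
      (mul_le_mul (by linarith) hsig (by positivity) (by positivity))
    refine mul_le_mul_of_nonneg_right ?_ (by positivity)
    rw [pow_add]
    exact mul_le_of_le_one_right (pow_nonneg hs.le _) (pow_le_one₀ hs.le hS1)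
  have hR1 : 1 / (16 * ((p : ℝ) + 1) ^ 2) * (((p : ℝ) + 1) * semi T ^ p * (T ^ 5 / 20) *
      (2 / 5 * T ^ 3) / 6) ≤ mu p * bumpBound p T (bumpH T) := by
    rw [mu, bumpBound, bumpH] at *
    gcongr
  refine (hL1.trans_lt ?_).trans_le hR1
  have hp0 : 0 < semi T ^ p := pow_pos hs p
  have e1 : 151 / 100 * (semi T ^ p * (T ^ 9 / 40000) / (((p : ℝ) + 1) * (9 / 10 * T))) =
      151 / 100 / 40000 / (9 / 10) * (semi T ^ p * T ^ 8 / ((p : ℝ) + 1)) := by
    field_simp
  have e2 : 1 / (16 * ((p : ℝ) + 1) ^ 2) * (((p : ℝ) + 1) * semi T ^ p * (T ^ 5 / 20) *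
      (2 / 5 * T ^ 3) / 6) = 1 / 4800 * (semi T ^ p * T ^ 8 / ((p : ℝ) + 1)) := by
    field_simp
    ring
  rw [e1, e2]
  exact mul_lt_mul_of_pos_right (by norm_num) (by positivity)

/-- The value at the comparison point. -/
theorem value_le {p : ℕ} (hf : IsProfile f) {T : ℝ} (hT0 : 0 < T) (hT : T ≤ 11 / 25)
    (hhi : ∀ h, bumpH T < h → excess p f < bumpBound p T h) : f T ≤ semi T + bumpH T := by
  have hs := semi_pos (t := T) ⟨by linarith, by linarith⟩
  have hS1 : semi T ≤ 1 := Real.sqrt_le_one.2 (by linarith [sq_nonneg T])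
  have hH0 : 0 < bumpH T := by unfold bumpH; positivity
  refine le_of_forall_pos_le_add fun ε hε => ?_
  obtain ⟨h, hH, hhε, hh4⟩ : ∃ h, bumpH T < h ∧ h ≤ bumpH T + ε ∧ h ≤ T ^ 4 / 20 := by
    have h1 : bumpH T ≤ T ^ 4 / 40 := by
      unfold bumpH
      linarith [mul_le_mul_of_nonneg_left hT (pow_pos hT0 4).le, pow_pos hT0 4]
    exact ⟨bumpH T + min ε (T ^ 4 / 40), by linarith [lt_min hε (show 0 < T ^ 4 / 40 by positivity)],
      by linarith [min_le_left ε (T ^ 4 / 40)], by linarith [min_le_right ε (T ^ 4 / 40)]⟩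
  have hh0 : 0 < h := hH0.trans hH
  have hw : 0 < √(2 * h * semi T ^ 3) := Real.sqrt_pos.2 (by positivity)
  have hwT : √(2 * h * semi T ^ 3) ≤ T := by
    rw [Real.sqrt_le_left hT0.le]
    have h1 : 2 * h * semi T ^ 3 ≤ 2 * h * 1 :=
      mul_le_mul_of_nonneg_left (pow_le_one₀ hs.le hS1) (by linarith)
    have h2 : T ^ 4 ≤ T ^ 2 := pow_le_pow_of_le_one hT0.le (by linarith) (by norm_num)
    linarith [sq_nonneg T]
  have := lt_of_excess p hf (t := T) (h := h) hw hh0.le (show T < 1 by linarith)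
    (abs_le.2 ⟨by linarith, le_rfl⟩) (abs_le.2 ⟨by linarith, by linarith⟩)
    (by rw [sq_sqrt]; positivity) (by simpa [bumpBound] using hhi h hH)
  linarith

/-- The line beyond the comparison point. -/
theorem line_le (hf : IsProfile f) {T t : ℝ} (hT0 : 0 < T) (hT : T ≤ 11 / 25)
    (hfT : f T ≤ semi T + bumpH T) (h1 : T ≤ t) (h2 : t < 1) :
    f t ≤ topVal T - slopeLow T * (t - T) := by
  have hq : 0 < T ^ 2 / 5 := by positivity
  have hT0' : 0 ≤ T * (1 - T / 5) := mul_nonneg hT0.le (by linarith)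
  have e : T - T * (1 - T / 5) = T ^ 2 / 5 := by ring
  have h3 := line_bound hf (a := T * (1 - T / 5)) (b := T) (F := semi T + bumpH T) hT0'
    (by linarith) h1 h2 hfT
  rw [e] at h3
  have hg := slope_ge hT0 hT
  have h4 : slopeLow T ≤ (semi (T * (1 - T / 5)) - (semi T + bumpH T)) / (T ^ 2 / 5) := by
    rw [le_div_iff₀ hq]; linarith
  have h5 : semi T + bumpH T ≤ topVal T := by
    have := semi_le_quartic hT0.le (by linarith)
    unfold topVal bumpH
    linarith
  have h6 := mul_le_mul_of_nonneg_right h4 (sub_nonneg.2 h1)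
  linarith

/-- The integral of the line beyond `T + e`. -/
theorem line_tail {p : ℕ} (hf : IsProfile f) {T e F σ : ℝ} (he : 0 ≤ e) (hT0 : 0 ≤ T) (hTe : T + e < 1)
    (hσ : 0 < σ) (hline : ∀ t, T ≤ t → t < 1 → f t ≤ F - σ * (t - T)) :
    ∫ t in (T + e)..1, (f t ^ (p + 1) - semi t ^ (p + 1)) ≤
      (F - σ * e) ^ (p + 2) / (((p : ℝ) + 2) * σ) := by
  have hn1 : T + e ∈ Icc (-1 : ℝ) 1 := ⟨by linarith, by linarith⟩
  have h01 : (1 : ℝ) ∈ Icc (-1 : ℝ) 1 := by norm_num
  have hend : 0 ≤ F - σ * (1 - T) := by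
    by_contra hneg
    push Not at hneg
    obtain ⟨d, hd0, hd1, hd2⟩ : ∃ d, 0 < d ∧ d ≤ 1 - T ∧ σ * d ≤ σ * (1 - T) - F :=
      ⟨min ((σ * (1 - T) - F) / σ) (1 - T), lt_min (div_pos (by linarith) hσ) (by linarith),
        min_le_right _ _,
        (mul_le_mul_of_nonneg_left (min_le_left _ _) hσ.le).trans_eq (by field_simp)⟩
    have h1 := hline (1 - d) (by linarith) (by linarith)
    have := profile_pos hf (t := 1 - d) ⟨by linarith, by linarith⟩
    linarith
  refine le_trans (intervalIntegral.integral_mono_on_of_le_Ioo hTe.le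
    ((int_pow hf (p + 1) hn1 h01).sub (int_pow isProfile_semi (p + 1) hn1 h01))
    ((by fun_prop : Continuous fun t : ℝ => (F + σ * T - σ * t) ^ (p + 1)).intervalIntegrable _ _)
    (fun t ht => ?_)) ?_
  · have ht' : t ∈ Ioo (-1 : ℝ) 1 := ⟨by linarith [ht.1], ht.2⟩
    have hl : f t ≤ F + σ * T - σ * t := by linarith [hline t (by linarith [ht.1]) ht.2]
    linarith [pow_le_pow_left₀ (profile_pos hf ht').le hl (p + 1),
      pow_nonneg (semi_pos ht').le (p + 1)]
  · rw [intervalIntegral.integral_comp_sub_mul (fun u => u ^ (p + 1)) hσ.ne', integral_pow,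
      smul_eq_mul, show F + σ * T - σ * (T + e) = F - σ * e by ring,
      show F + σ * T - σ * 1 = F - σ * (1 - T) by ring]
    have h1 : 0 ≤ (F - σ * (1 - T)) ^ (p + 1 + 1) := pow_nonneg hend _
    push_cast
    rw [inv_mul_eq_div, div_div, show ((p : ℝ) + 1 + 1) * σ = ((p : ℝ) + 2) * σ by ring]
    exact div_le_div_of_nonneg_right (by linarith) (by positivity)

/-- The second regime: the excess is the cost of the bump at some comparison point. -/
theorem hyp_point {p : ℕ} (hp : 29 ≤ p) (hf : IsProfile f) {T : ℝ} (hT0 : 0 < T) (hT : T ≤ 11 / 25)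
    (hm : 6 ≤ ((p : ℝ) + 1) * T ^ 4) (hc : excess p f < coreBound p)
    (hlo : bumpBound p T (bumpH T) ≤ excess p f)
    (hhi : ∀ h, bumpH T < h → excess p f < bumpBound p T h) :
    ∃ T₂ ∈ Icc (0 : ℝ) 1, (∀ t ∈ Ioo (0 : ℝ) T₂, f t * den p t ≤ cr p) ∧
      (3 / 2 + mu p) * ∫ t in T₂..1, (f t ^ (p + 1) - semi t ^ (p + 1)) < mu p * excess p f := by
  have hs := semi_pos (t := T) ⟨by linarith, by linarith⟩
  have hS1 : semi T ≤ 1 := Real.sqrt_le_one.2 (by linarith [sq_nonneg T])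
  have hH0 : 0 < bumpH T := by unfold bumpH; positivity
  have hb28 : bumpH T < T ^ 4 / 28 := by
    unfold bumpH
    nlinarith [pow_pos hT0 4, mul_le_mul_of_nonneg_left hT (pow_pos hT0 4).le]
  have hbulk := fun t ht => bulk_le hp hf (show T < 1 by linarith) hc (hhi _ hb28) (t := t) ht
  have hfT := value_le hf hT0 hT hhi
  set e := (3 / 5 + 2 * T) * T ^ 2 with heD
  have he0 : 0 < e := by positivity
  have he1 : e ≤ 3 / 10 := by
    rw [heD]; nlinarith [pow_le_pow_left₀ hT0.le hT 2, pow_le_pow_left₀ hT0.le hT 3]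
  set σ := slopeLow T with hσD
  have hσ : 0 < σ := by rw [hσD]; unfold slopeLow; nlinarith [pow_pos hT0 3]
  have hline : ∀ t, T ≤ t → t < 1 → f t ≤ topVal T - σ * (t - T) := fun t h1 h2 =>
    line_le hf hT0 hT hfT h1 h2
  refine ⟨T + e, ⟨by linarith, by linarith⟩, fun t ht => ?_, ?_⟩
  · rcases le_total t T with h | h
    · exact hbulk t ⟨ht.1, h⟩
    have hp' : (29 : ℝ) ≤ p := by exact_mod_cast hp
    set z := 1 / ((p : ℝ) + 1) with hz
    have hz0 : 0 < z := by positivity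
    have hzT : z ≤ T ^ 4 / 6 := by
      rw [hz, div_le_div_iff₀ (by positivity) (by norm_num)]; linarith
    have hd : den p t = 1 + mu p - z / 2 + (1 + z) * t ^ 2 / 2 := by
      rw [den, hz, div_div ((1 : ℝ)), mul_comm ((p : ℝ) + 1) 2]
    have hmu : mu p = z ^ 2 / 16 := by rw [mu, hz]; field_simp
    have hc' : 1 - z / 2 + 29 / 50 * z ^ 2 ≤ cr p := by
      refine le_trans (le_of_eq ?_) (crLow_le p hp)
      rw [crLow, hz, div_pow, one_pow, mul_one_div, div_div ((1 : ℝ)), mul_comm ((p : ℝ) + 1) 2]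
    have hd0 : 0 ≤ den p t := by
      rw [hd, hmu]
      have : z ≤ 1 := by rw [hz, div_le_one (by positivity)]; linarith
      have : 0 ≤ (1 + z) * t ^ 2 / 2 := by positivity
      linarith [sq_nonneg z]
    refine (mul_le_mul_of_nonneg_right (hline t h (by linarith [ht.2])) hd0).trans (le_trans ?_ hc')
    obtain ⟨s, hs0, hs1, hts⟩ : ∃ s, 0 ≤ s ∧ s ≤ 1 ∧ t = T + s * (3 / 5 + 2 * T) * T ^ 2 := by
      refine ⟨(t - T) / e, div_nonneg (by linarith) he0.le, (div_le_one he0).2 (by linarith [ht.2]), ?_⟩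
      rw [heD]; field_simp; ring
    have hpoly := line_poly hT0 hT hs0 hs1
    rw [← hts, show s * (3 / 5 + 2 * T) * T ^ 2 = t - T by rw [hts]; ring, ← hσD] at hpoly
    set l := topVal T - σ * (t - T)
    have hl0 : 0 ≤ l :=
      (profile_pos hf ⟨by linarith, by linarith [ht.2]⟩).le.trans (hline t h (by linarith [ht.2]))
    have hl1 : l ≤ 1 := by
      have h5 : topVal T ≤ 1 := by
        unfold topVal
        nlinarith [pow_pos hT0 4, mul_le_mul_of_nonneg_left hT (pow_pos hT0 4).le, sq_nonneg T]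
      have := mul_nonneg hσ.le (sub_nonneg.2 h)
      linarith
    have h6 := mul_le_mul_of_nonneg_right hzT
      (add_nonneg (sub_nonneg.2 hl1) (mul_nonneg (sq_nonneg t) hl0))
    have h7 : z ^ 2 * l ≤ z ^ 2 := mul_le_of_le_one_right (sq_nonneg z) hl1
    rw [hd, hmu]
    linarith [sq_nonneg z]
  · -- the tail
    have hint := line_tail (p := p) hf he0.le hT0.le (show T + e < 1 by linarith) hσ hline
    calc (3 / 2 + mu p) * ∫ t in (T + e)..1, (f t ^ (p + 1) - semi t ^ (p + 1))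
        ≤ (3 / 2 + mu p) * ((topVal T - σ * e) ^ (p + 2) / (((p : ℝ) + 2) * σ)) :=
          mul_le_mul_of_nonneg_left hint (by linarith [mu_pos p])
      _ < mu p * bumpBound p T (bumpH T) := tail_num hp hT0 hT hm
      _ ≤ mu p * excess p f := mul_le_mul_of_nonneg_left hlo (mu_pos p).le

end Vale.Agent.P237.All.Transport.Tiny
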