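import Vale.Agent.P237.All.CertTools

/-!
P237, every dimension: the ratio of consecutive semicircle moments from below, to second order in
`1/m` (`notes/P237h8/tiny-k-02Dec.md`).
-/

noncomputable section

open MeasureTheory Set Real intervalIntegral Filter
open scoped Topology

namespace Vale.Agent.P237.All.Transport.Tiny

/-- The ratio of the moments of order `p + 1` and `p`. -/
def cr (p : ℕ) : ℝ := mass (p + 1) semi 1 / mass p semi 1

theorem cr_pos (p : ℕ) : 0 < cr p :=
  div_pos (mass_one_pos isProfile_semi _) (mass_one_pos isProfile_semi _)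

theorem mass_semi_logconvex (q : ℕ) :
    mass (q + 1) semi 1 ^ 2 ≤ mass q semi 1 * mass (q + 2) semi 1 := by
  have hq := mass_one_pos isProfile_semi q
  set P0 := mass q semi 1
  set P1 := mass (q + 1) semi 1
  set P2 := mass (q + 2) semi 1
  have hi : ∀ n, IntervalIntegrable (fun y => semi y ^ n) volume 0 1 := fun n =>
    (semi_continuous.pow n).intervalIntegrable _ _
  have h : ∀ u : ℝ, 0 ≤ u ^ 2 * P0 - 2 * u * P1 + P2 := fun u => by
    have h0 : 0 ≤ ∫ y in (0 : ℝ)..1, semi y ^ q * (u - semi y) ^ 2 :=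
      intervalIntegral.integral_nonneg zero_le_one fun y _ =>
        mul_nonneg (pow_nonneg (Real.sqrt_nonneg _) _) (sq_nonneg _)
    refine h0.trans (le_of_eq ?_)
    rw [show (fun y => semi y ^ q * (u - semi y) ^ 2) = fun y =>
      u ^ 2 * semi y ^ q - 2 * u * semi y ^ (q + 1) + semi y ^ (q + 2) by funext y; ring,
      intervalIntegral.integral_add (((hi q).const_mul _).sub ((hi _).const_mul _)) (hi _),
      intervalIntegral.integral_sub ((hi q).const_mul _) ((hi _).const_mul _),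
      intervalIntegral.integral_const_mul, intervalIntegral.integral_const_mul]
    rfl
  have h' := h (P1 / P0)
  field_simp at h'
  nlinarith

theorem cr_step (p : ℕ) :
    cr (p + 2) = ((p : ℝ) + 3) ^ 2 / (((p : ℝ) + 4) * ((p : ℝ) + 2)) * cr p := by
  have h0 := mass_one_pos isProfile_semi p
  have e1 := mass_semi_step p
  have e2 := mass_semi_step (p + 1)
  push_cast at e2
  rw [cr, cr, show p + 2 + 1 = p + 1 + 2 from rfl, e1, e2]
  field_simp
  ring

theorem cr_mul (p : ℕ) : cr p * cr (p + 1) = ((p : ℝ) + 2) / ((p : ℝ) + 3) := by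
  have h0 := mass_one_pos isProfile_semi p
  have h1 := mass_one_pos isProfile_semi (p + 1)
  rw [cr, cr, show p + 1 + 1 = p + 2 from rfl, mass_semi_step p]
  field_simp

theorem cr_mono (p : ℕ) : cr p ≤ cr (p + 1) := by
  have h0 := mass_one_pos isProfile_semi p
  have h1 := mass_one_pos isProfile_semi (p + 1)
  rw [cr, cr, div_le_div_iff₀ h0 h1, show p + 1 + 1 = p + 2 from rfl]
  nlinarith [mass_semi_logconvex p]

/-- The square of the ratio, rescaled; it decreases to one in steps of two. -/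
def crScaled (p : ℕ) : ℝ := cr p ^ 2 * (2 * (p : ℝ) + 5) / (2 * (p : ℝ) + 3)

theorem crScaled_step (p : ℕ) : crScaled (p + 2) ≤ crScaled p := by
  have hp : (0 : ℝ) ≤ p := Nat.cast_nonneg p
  have e : crScaled (p + 2) = cr p ^ 2 * ((((p : ℝ) + 3) ^ 2 / (((p : ℝ) + 4) * ((p : ℝ) + 2))) ^ 2 *
      (2 * ((p + 2 : ℕ) : ℝ) + 5) / (2 * ((p + 2 : ℕ) : ℝ) + 3)) := by
    rw [crScaled, cr_step]; ring
  rw [e, crScaled, mul_div_assoc (cr p ^ 2)]
  refine mul_le_mul_of_nonneg_left ?_ (sq_nonneg _)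
  push_cast
  rw [div_pow, div_mul_eq_mul_div, div_div, div_le_div_iff₀ (by positivity) (by positivity)]
  nlinarith [hp, pow_nonneg hp 2, pow_nonneg hp 3, pow_nonneg hp 4, pow_nonneg hp 5]

theorem one_le_crScaled (p : ℕ) : 1 ≤ crScaled p := by
  have hanti : ∀ j, crScaled (p + 2 * j) ≤ crScaled p := by
    intro j
    induction j with
    | zero => simp
    | succ j ih => exact le_trans (by rw [Nat.mul_succ, ← Nat.add_assoc]; exact crScaled_step _) ih
  have hlow : ∀ q : ℕ, 1 - 1 / ((q : ℝ) + 1) ≤ crScaled (q + 1) := by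
    intro q
    have hq : (0 : ℝ) ≤ q := Nat.cast_nonneg q
    have h1 : ((q : ℝ) + 2) / ((q : ℝ) + 3) ≤ cr (q + 1) ^ 2 := by
      rw [← cr_mul, sq]; exact mul_le_mul_of_nonneg_right (cr_mono q) (cr_pos _).le
    rw [crScaled]
    push_cast
    refine le_trans ?_ (div_le_div_of_nonneg_right (mul_le_mul_of_nonneg_right h1 (by positivity))
      (by positivity))
    field_simp
    nlinarith [pow_nonneg hq 2, pow_nonneg hq 3]
  refine le_of_forall_pos_le_add fun ε hε => ?_
  obtain ⟨n, hn⟩ := exists_nat_gt (1 / ε)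
  have h := hanti (n + 1)
  obtain ⟨q, hq⟩ : ∃ q, p + 2 * (n + 1) = q + 1 := ⟨p + 2 * n + 1, by ring⟩
  rw [hq] at h
  have hn' : (n : ℝ) ≤ q := by exact_mod_cast (by omega : n ≤ q)
  have : 1 / ((q : ℝ) + 1) ≤ ε := by
    rw [div_le_iff₀ (by positivity)]
    rw [div_lt_iff₀ hε] at hn
    nlinarith
  linarith [hlow q]

/-- The lower bound on the ratio used at the tiny excess. -/
def crLow (p : ℕ) : ℝ := 1 - 1 / (2 * ((p : ℝ) + 1)) + 29 / 50 / ((p : ℝ) + 1) ^ 2

theorem crLow_le (p : ℕ) (hp : 29 ≤ p) : crLow p ≤ cr p := by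
  have hp' : (29 : ℝ) ≤ p := by exact_mod_cast hp
  refine (pow_le_pow_iff_left₀ ?_ (cr_pos p).le two_ne_zero).1 ?_
  · have : 1 / (2 * ((p : ℝ) + 1)) ≤ 1 := by rw [div_le_one (by linarith)]; linarith
    unfold crLow
    positivity
  · have h := one_le_crScaled p
    rw [crScaled, one_le_div (by positivity)] at h
    refine le_trans ?_ ((div_le_iff₀ (by positivity)).2 h)
    rw [crLow]
    obtain ⟨z, hz, hze⟩ : ∃ z, 0 ≤ z ∧ (p : ℝ) = 29 + z := ⟨p - 29, by linarith, by ring⟩
    rw [hze]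
    field_simp
    nlinarith [pow_nonneg hz 2, pow_nonneg hz 3, pow_nonneg hz 4]

end Vale.Agent.P237.All.Transport.Tiny
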