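import Vale.Agent.P237.All.Tiny.MidCheck

/-!
P237, dimensions twenty-five to twenty-nine: the bound for excess up to `.018`, by the rational check
with rows found by a greedy search.
-/

noncomputable section

namespace Vale.Agent.P237.All.Transport.Tiny

/-- Middle cells and rows (end, chord start, sum end) for `p = 24, ..., 28`. -/
def smallHighData : List (ℕ × List (ℕ × ℕ × ℕ)) :=
  [(25, [(53, 35, 50), (56, 30, 53), (60, 30, 56), (66, 36, 60), (74, 35, 66), (86, 45, 74), (98, 32, 86), (100, 30, 98)]),
    (25, [(53, 30, 50), (57, 38, 53), (62, 34, 57), (69, 43, 62), (78, 37, 69), (90, 39, 78), (100, 30, 90)]),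
    (25, [(53, 30, 50), (57, 39, 53), (62, 36, 57), (69, 44, 62), (78, 39, 69), (90, 41, 78), (100, 31, 90)]),
    (24, [(50, 30, 48), (53, 30, 50), (57, 40, 53), (62, 35, 57), (69, 44, 62), (78, 41, 69), (90, 43, 78), (100, 33, 90)]),
    (24, [(50, 30, 48), (53, 31, 50), (57, 37, 53), (62, 37, 57), (68, 31, 62), (76, 36, 68), (87, 42, 76), (99, 40, 87), (100, 30, 99)])]

/-- The check at `p = i + 24`. -/
def smallHighRow (i : ℕ) : Bool :=
  let d := smallHighData.getD i (0, [])
  midCheck (i + 24) (18 / 1000) d.1 d.2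

theorem smallHighRows_ok : (List.range 5).all smallHighRow = true := by decide +kernel

/-- Dimensions twenty-five to twenty-nine: the bound for excess up to `9 / 500`. -/
theorem hasBound_smallHigh {p : ℕ} (hp : 24 ≤ p) (hp' : p ≤ 28) {J k : ℝ}
    (hJ : J ≤ Real.exp (k / ((p : ℝ) + 1)) * (2 * mass (p + 1) semi 1))
    (hk : k ≤ ((9 / 500 : ℚ) : ℝ)) : HasBound p J := by
  have h := List.all_eq_true.1 smallHighRows_ok (p - 24) (List.mem_range.2 (by omega))
  rw [smallHighRow, show p - 24 + 24 = p by omega] at h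
  exact hasBound_of_midCheck h hJ (hk.trans_eq (by norm_num))

end Vale.Agent.P237.All.Transport.Tiny
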