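import Vale.Agent.P237.All.Tiny.Threshold

/-!
P237, dimensions below thirty, small excess: two bumps, the second-order threshold and the line
(`notes/P237h8/tiny-k-02Dec.md`).
-/

noncomputable section

open MeasureTheory Set Real intervalIntegral

namespace Vale.Agent.P237.All.Transport.Tiny

variable {f : ℝ → ℝ}

/-- An excess `h` at `t` costs mass on both sides. -/
theorem lt_of_excess_two (p : ℕ) (hf : IsProfile f) {t b h sl wl wr u τ : ℝ} (ht0 : 0 ≤ t) (htb : t ≤ b)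
    (hh : 0 ≤ h) (hb : b < 1) (hsl0 : 0 ≤ sl) (hsl : sl ≤ semi b) (hwl0 : 0 ≤ wl) (hwl : wl ≤ t)
    (hwl2 : wl ^ 2 ≤ 2 * h * sl ^ 3) (hwr0 : 0 ≤ wr) (hwr : wr = 0 ∨ t + wr ≤ τ ∧ τ < 1)
    (hu0 : 0 ≤ u) (hu : wr = 0 ∨ u ≤ semi τ) (hwr2 : wr ^ 2 ≤ 2 * h * u ^ 3)
    (hex : excess p f < ((p : ℝ) + 1) * h * (sl ^ p * wl + u ^ p * wr) / 3) : f t < semi t + h := by
  by_contra hc
  push Not at hc
  have hwrt : t + wr < 1 := by
    rcases hwr with h0 | ⟨h0, h1⟩ <;> linarith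
  have h01 : (1 : ℝ) ∈ Icc (-1 : ℝ) 1 := by norm_num
  have hz : (0 : ℝ) ∈ Icc (-1 : ℝ) 1 := by norm_num
  have hi := (int_pow hf (p + 1) hz h01).sub (int_pow isProfile_semi (p + 1) hz h01)
  have hL : ((p : ℝ) + 1) * h * (sl ^ p * wl) / 3 ≤
      ∫ x in (t - wl)..t, (f x ^ (p + 1) - semi x ^ (p + 1)) := by
    rcases hwl0.eq_or_lt with h0 | h0
    · simp [← h0]
    have h1 := excess_lower p hf (t₀ := t) (τ := b) h0 hh hb (abs_le.2 ⟨by linarith, htb⟩)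
      (abs_le.2 ⟨by linarith, by linarith⟩)
      (hwl2.trans (mul_le_mul_of_nonneg_left (pow_le_pow_left₀ hsl0 hsl 3) (by linarith))) hc
    refine le_trans ?_ h1
    have := mul_le_mul_of_nonneg_left (pow_le_pow_left₀ hsl0 hsl p)
      (show 0 ≤ ((p : ℝ) + 1) * h * wl by positivity)
    linarith
  have hR : ((p : ℝ) + 1) * h * (u ^ p * wr) / 3 ≤
      ∫ x in t..(t + wr), (f x ^ (p + 1) - semi x ^ (p + 1)) := by
    rcases hwr0.eq_or_lt with h0 | h0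
    · simp [← h0]
    obtain ⟨hτt, hτ⟩ := hwr.resolve_left h0.ne'
    have hu' := hu.resolve_left h0.ne'
    have htI : t ∈ Ioo (-1 : ℝ) 1 := ⟨by linarith, by linarith⟩
    have h1 := excess_lower p hf (t₀ := -t) (τ := τ) h0 hh hτ (abs_le.2 ⟨by linarith, by linarith⟩)
      (abs_le.2 ⟨by linarith, by linarith⟩)
      (hwr2.trans (mul_le_mul_of_nonneg_left (pow_le_pow_left₀ hu0 hu' 3) (by linarith)))
      (by rw [hf.2.1 t htI]; simpa [semi] using hc)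
    have e : ∫ x in (-t - wr)..(-t), (f x ^ (p + 1) - semi x ^ (p + 1)) =
        ∫ x in t..(t + wr), (f x ^ (p + 1) - semi x ^ (p + 1)) := by
      rw [show (-t - wr : ℝ) = -(t + wr) by ring, ← intervalIntegral.integral_comp_neg]
      refine intervalIntegral.integral_congr fun x hx => ?_
      rw [uIcc_of_le (by linarith)] at hx
      have hxI : x ∈ Ioo (-1 : ℝ) 1 := ⟨by linarith [hx.1], by linarith [hx.2]⟩
      simp only [hf.2.1 x hxI, semi, neg_sq]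
    rw [e] at h1
    refine le_trans ?_ h1
    have := mul_le_mul_of_nonneg_left (pow_le_pow_left₀ hu0 hu' p)
      (show 0 ≤ ((p : ℝ) + 1) * h * wr by positivity)
    linarith
  have hsub1 : uIcc (t - wl) t ⊆ uIcc (0 : ℝ) 1 := by
    rw [uIcc_of_le (by linarith), uIcc_of_le zero_le_one]; exact Icc_subset_Icc (by linarith) (by linarith)
  have hsub2 : uIcc t (t + wr) ⊆ uIcc (0 : ℝ) 1 := by
    rw [uIcc_of_le (by linarith), uIcc_of_le zero_le_one]; exact Icc_subset_Icc ht0 (by linarith)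
  have h2 : ∫ x in (t - wl)..(t + wr), (f x ^ (p + 1) - semi x ^ (p + 1)) ≤ excess p f := by
    refine (intervalIntegral.integral_mono_interval (show (0 : ℝ) ≤ t - wl by linarith) (by linarith)
      (show t + wr ≤ 1 by linarith) ?_ hi).trans (le_of_eq ?_)
    · refine (ae_restrict_iff' measurableSet_Ioc).2 ?_
      filter_upwards [compl_mem_ae_iff.2 (measure_singleton (1 : ℝ))] with x h1x hx
      exact sub_nonneg.2 (pow_le_pow_left₀ (Real.sqrt_nonneg _)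
        (hf.2.2 x ⟨by linarith [hx.1], lt_of_le_of_ne hx.2 h1x⟩) _)
    · rw [intervalIntegral.integral_sub (int_pow hf _ hz h01) (int_pow isProfile_semi _ hz h01)]; rfl
  rw [← intervalIntegral.integral_add_adjacent_intervals (hi.mono_set hsub1) (hi.mono_set hsub2)] at h2
  linarith

/-- The margin on an interval where `f < semi + h`. -/
theorem gam_margin_cell {p : ℕ} (hp : 1 ≤ p) {t x c h sl sh s0 : ℝ} (ht : t ∈ Ioo (-1 : ℝ) 1)
    (hx : semi t ≤ x) (hxh : x < semi t + h) (hsl0 : 0 < sl) (hsl : sl ≤ semi t) (hsh : semi t ≤ sh)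
    (hs0 : 0 ≤ s0) (hc0 : 0 ≤ c) (hc : c ≤ cr p) (hh : (p : ℝ) * h * 9 ≤ 2 * sl) (hx2 : sh + h ≤ 2)
    (hcoef : 9 / 20 * c / sl ≤ 3 / 2 - ((p : ℝ) + 2) / (2 * ((p : ℝ) + 1)) * sh ^ 2)
    (hmax : ∀ s ∈ ({sl, sh} : Set ℝ), 3 / 2 * s0 - ((p : ℝ) + 2) / (2 * ((p : ℝ) + 1)) * s0 ^ 3 +
      (3 / 2 - 3 * (((p : ℝ) + 2) / (2 * ((p : ℝ) + 1))) * s0 ^ 2) * (s - s0) +
      h * (3 / 2 - ((p : ℝ) + 2) / (2 * ((p : ℝ) + 1)) * sl ^ 2 - 9 / 20 * c / sh) ≤
        c - 1 / 1000000) :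
    gam p t x ≤ -(1 / 2000000) * (x ^ (p + 1) - semi t ^ (p + 1)) := by
  have hs := semi_pos ht
  set s := semi t with hsD
  set B := ((p : ℝ) + 2) / (2 * ((p : ℝ) + 1)) with hB
  have hB0 : 0 ≤ B := by positivity
  have hd : den p t - mu p = 3 / 2 - B * s ^ 2 := by
    rw [den, hsD, semi_sq (Ioo_subset_Icc_self ht), hB]; field_simp; ring
  have hx0 : 0 < x := hs.trans_le hx
  have hdδ : (p : ℝ) * (x / s - 1) ≤ 2 / 9 := by
    rw [div_sub_one hs.ne', mul_div_assoc', div_le_iff₀ hs]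
    nlinarith [mul_le_mul_of_nonneg_left (show x - s ≤ h by linarith) (Nat.cast_nonneg p : (0 : ℝ) ≤ p)]
  refine (gam_le_two hp ht hx hdδ).trans (mul_le_mul_of_nonneg_right ?_
    (sub_nonneg.2 (pow_le_pow_left₀ hs.le hx _)))
  rw [hd]
  have hcs : 9 / 20 * c / s ≤ 9 / 20 * c / sl := div_le_div_of_nonneg_left (by linarith) hsl0 hsl
  have hcsh : 9 / 20 * c / sh ≤ 9 / 20 * c / s := div_le_div_of_nonneg_left (by linarith) hs hsh
  have hs2 : s ^ 2 ≤ sh ^ 2 := pow_le_pow_left₀ hs.le hsh 2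
  have hs2' : sl ^ 2 ≤ s ^ 2 := pow_le_pow_left₀ hsl0.le hsl 2
  have hco : 0 ≤ 3 / 2 - B * s ^ 2 - 9 / 20 * c / s := by
    linarith [mul_le_mul_of_nonneg_left hs2 hB0]
  have hh0 : 0 ≤ h := by linarith
  have h1 := mul_le_mul_of_nonneg_right hxh.le hco
  have h2 : h * (3 / 2 - B * s ^ 2 - 9 / 20 * c / s) ≤ h * (3 / 2 - B * sl ^ 2 - 9 / 20 * c / sh) :=
    mul_le_mul_of_nonneg_left (by linarith [mul_le_mul_of_nonneg_left hs2' hB0]) hh0
  have htan : 3 / 2 * s - B * s ^ 3 ≤ 3 / 2 * s0 - B * s0 ^ 3 + (3 / 2 - 3 * B * s0 ^ 2) * (s - s0) := by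
    nlinarith [mul_nonneg hB0 (mul_nonneg (sq_nonneg (s - s0)) (show 0 ≤ s + 2 * s0 by linarith))]
  have hlin : (3 / 2 - 3 * B * s0 ^ 2) * (s - s0) ≤ max ((3 / 2 - 3 * B * s0 ^ 2) * (sl - s0))
      ((3 / 2 - 3 * B * s0 ^ 2) * (sh - s0)) := by
    rcases le_total 0 (3 / 2 - 3 * B * s0 ^ 2) with hg | hg
    · exact le_max_of_le_right (mul_le_mul_of_nonneg_left (by linarith) hg)
    · exact le_max_of_le_left (mul_le_mul_of_nonpos_left (by linarith) hg)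
  have hm : max ((3 / 2 - 3 * B * s0 ^ 2) * (sl - s0)) ((3 / 2 - 3 * B * s0 ^ 2) * (sh - s0)) ≤
      c - 1 / 1000000 - (3 / 2 * s0 - B * s0 ^ 3) - h * (3 / 2 - B * sl ^ 2 - 9 / 20 * c / sh) :=
    max_le (by linarith [hmax sl (by simp)]) (by linarith [hmax sh (by simp)])
  have e : s * (9 / 20 * c / s) = 9 / 20 * c := by field_simp
  have h3 : x * (3 / 2 - B * s ^ 2) ≤ c * (1 + 9 / 20 * (x / s - 1)) - 1 / 1000000 := by
    have e2 : x * (9 / 20 * c / s) = 9 / 20 * c * (x / s) := by ring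
    linarith [hlin.trans hm]
  have h4 : c * (1 + 9 / 20 * (x / s - 1)) ≤ cr p * (1 + 9 / 20 * (x / s - 1)) :=
    mul_le_mul_of_nonneg_right hc (by linarith [(one_le_div hs).2 hx])
  rw [sub_le_iff_le_add, le_neg_add_iff_add_le, le_div_iff₀ hx0]
  linarith

/-- The margin under a value `F`. -/
theorem gam_margin_line {p : ℕ} (hp : 1 ≤ p) {t x c F v : ℝ} (ht : t ∈ Ioo (0 : ℝ) 1) (htv : t ≤ v)
    (hx : semi t ≤ x) (hxF : x ≤ F) (hF2 : F ≤ 2) (hc : c ≤ cr p)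
    (h : F * (1 - 1 / (2 * ((p : ℝ) + 1)) + ((p : ℝ) + 2) / (2 * ((p : ℝ) + 1)) * v ^ 2) ≤ c - 1 / 1000000) :
    gam p t x ≤ -(1 / 2000000) * (x ^ (p + 1) - semi t ^ (p + 1)) := by
  have htI : t ∈ Ioo (-1 : ℝ) 1 := ⟨by linarith [ht.1], ht.2⟩
  have hs := semi_pos htI
  have hx0 : 0 < x := hs.trans_le hx
  refine (gam_le hp htI hx).trans (mul_le_mul_of_nonneg_right ?_
    (sub_nonneg.2 (pow_le_pow_left₀ hs.le hx _)))
  have hd : den p t - mu p = 1 - 1 / (2 * ((p : ℝ) + 1)) + ((p : ℝ) + 2) / (2 * ((p : ℝ) + 1)) * t ^ 2 := by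
    rw [den]; field_simp; ring
  have hd0 : 0 ≤ den p t - mu p := by
    rw [hd]
    have : 1 / (2 * ((p : ℝ) + 1)) ≤ 1 := by
      rw [div_le_one (by positivity)]; linarith [(Nat.cast_nonneg p : (0 : ℝ) ≤ p)]
    positivity
  have h1 : den p t - mu p ≤ 1 - 1 / (2 * ((p : ℝ) + 1)) + ((p : ℝ) + 2) / (2 * ((p : ℝ) + 1)) * v ^ 2 := by
    rw [hd]; gcongr; exact ht.1.le
  have h2 := (mul_le_mul hxF h1 hd0 (hx0.le.trans hxF)).trans h
  rw [sub_le_iff_le_add, le_neg_add_iff_add_le, le_div_iff₀ hx0]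
  linarith

end Vale.Agent.P237.All.Transport.Tiny
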