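import Vale.Agent.P237.All.Tiny.Gap

/-!
P237, every dimension, tiny excess: the two regimes of the comparison point
(`notes/P237h8/tiny-k-02Dec.md`).
-/

noncomputable section

open MeasureTheory Set Real intervalIntegral

namespace Vale.Agent.P237.All.Transport.Tiny

variable {f : ℝ → ℝ}

/-- Concavity continues a chord from above. -/
theorem line_bound (hf : IsProfile f) {a b t F : ℝ} (ha : 0 ≤ a) (hab : a < b) (hbt : b ≤ t)
    (ht : t < 1) (hb : f b ≤ F) : f t ≤ F - (semi a - F) / (b - a) * (t - b) := by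
  rcases hbt.eq_or_lt with rfl | hlt
  · simpa using hb
  have hs := hf.1.slope_anti_adjacent (x := a) (y := b) (z := t) ⟨by linarith, by linarith⟩
    ⟨by linarith, ht⟩ hab hlt
  have hfa := hf.2.2 a ⟨by linarith, by linarith⟩
  rw [div_le_iff₀ (sub_pos.2 hlt)] at hs
  have h2 : (f b - f a) / (b - a) * (t - b) ≤ (F - semi a) / (b - a) * (t - b) :=
    mul_le_mul_of_nonneg_right (div_le_div_of_nonneg_right (by linarith) (sub_pos.2 hab).le)
      (sub_pos.2 hlt).le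
  have e : (F - semi a) / (b - a) * (t - b) = -((semi a - F) / (b - a) * (t - b)) := by ring
  linarith

/-- The bump at `t = √(2 / m)` costs at least the central bound. -/
theorem coreBound_le (p : ℕ) (hp : 29 ≤ p) :
    coreBound p ≤ bumpBound p √(2 / ((p : ℝ) + 1)) (√(2 / ((p : ℝ) + 1)) ^ 4 / 28) := by
  have hm : (30 : ℝ) ≤ (p : ℝ) + 1 := by
    have : (29 : ℝ) ≤ p := by exact_mod_cast hp
    linarith
  set m : ℝ := (p : ℝ) + 1 with hmD
  have hm0 : 0 < m := by linarith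
  set τ := √(2 / m)
  have hτ2 : τ ^ 2 = 2 / m := sq_sqrt (by positivity)
  have hτ1 : τ ^ 2 ≤ 1 / 15 := by rw [hτ2, div_le_div_iff₀ hm0 (by norm_num)]; linarith
  have hS : (9 / 10 : ℝ) ≤ semi τ ^ 3 := by
    have h1 : (14 / 15 : ℝ) ≤ semi τ ^ 2 := by
      rw [semi, sq_sqrt (by linarith)]; linarith
    have h2 : (27 / 28 : ℝ) ≤ semi τ :=
      (pow_le_pow_iff_left₀ (by norm_num) (Real.sqrt_nonneg _) two_ne_zero).1 (le_trans (by norm_num) h1)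
    calc (9 / 10 : ℝ) ≤ 14 / 15 * (27 / 28) := by norm_num
      _ ≤ semi τ ^ 2 * semi τ := mul_le_mul h1 h2 (by norm_num) (by positivity)
      _ = _ := by ring
  have hh : τ ^ 4 / 28 = 1 / 7 / m ^ 2 := by
    rw [show τ ^ 4 = (τ ^ 2) ^ 2 by ring, hτ2]; ring_nf
  rw [coreBound, bumpBound, hh, ← hmD]
  refine div_le_div_of_nonneg_right (mul_le_mul ?_ ?_ (by positivity) ?_) (by norm_num)
  · exact mul_le_mul_of_nonneg_left (div_le_div_of_nonneg_right (by norm_num) (by positivity))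
      (mul_nonneg hm0.le (pow_nonneg (Real.sqrt_nonneg _) _))
  · rw [Real.le_sqrt' (by positivity), show (23 / 50 / m) ^ 2 = 529 / 2500 / m ^ 2 by ring_nf,
      show 2 * (1 / 7 / m ^ 2) * semi τ ^ 3 = 2 / 7 * semi τ ^ 3 / m ^ 2 by ring]
    exact div_le_div_of_nonneg_right (by linarith) (by positivity)
  · exact mul_nonneg (mul_nonneg hm0.le (pow_nonneg (Real.sqrt_nonneg _) _)) (by positivity)

theorem bumpBound_mono (p : ℕ) (t : ℝ) {h h' : ℝ} (h0 : 0 ≤ h) (hh : h ≤ h') :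
    bumpBound p t h ≤ bumpBound p t h' := by
  have hs : 0 ≤ semi t := Real.sqrt_nonneg _
  unfold bumpBound
  gcongr
  all_goals first | linarith | positivity | (have := h0.trans hh; positivity)

theorem bumpBound_lt (p : ℕ) {t h h' : ℝ} (ht : t ∈ Ioo (-1 : ℝ) 1) (h0 : 0 < h) (hh : h < h') :
    bumpBound p t h < bumpBound p t h' := by
  have hs := semi_pos ht
  have hh0 : 0 < h' := h0.trans hh
  unfold bumpBound
  refine div_lt_div_of_pos_right ?_ (by norm_num)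
  refine mul_lt_mul (mul_lt_mul_of_pos_left hh (by positivity)) (Real.sqrt_le_sqrt ?_)
    (Real.sqrt_pos.2 (mul_pos (mul_pos two_pos h0) (pow_pos hs 3)))
    (mul_nonneg (by positivity) hh0.le)
  gcongr

/-- Below the threshold up to `b`. -/
theorem bulk_le {p : ℕ} (hp : 29 ≤ p) (hf : IsProfile f) {b : ℝ} (hb : b < 1)
    (hc : excess p f < coreBound p) (hbb : excess p f < bumpBound p b (b ^ 4 / 28)) {t : ℝ}
    (ht : t ∈ Ioc (0 : ℝ) b) : f t * den p t ≤ cr p := by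
  set a := √(2 / ((p : ℝ) + 1)) with ha
  have ha2 : a ^ 2 = 2 / ((p : ℝ) + 1) := sq_sqrt (by positivity)
  have ha0 : 0 < a := Real.sqrt_pos.2 (by positivity)
  rcases le_total (t ^ 2) (2 / ((p : ℝ) + 1)) with h | h
  · exact core_le hp hf ht.1.le h hc
  have hat : a ≤ t := (pow_le_pow_iff_left₀ ha0.le ht.1.le two_ne_zero).1 (by rw [ha2]; exact h)
  exact outer_le hp hf ⟨ht.1, ht.2.trans_lt hb⟩ h
    ((lt_min (hc.trans_le (coreBound_le p hp)) hbb).trans_le (bump_between p ha0 hb ⟨hat, ht.2⟩))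

/-- The first regime: a bump of `1/1000` at `11/25` is not affordable. -/
theorem hyp_small {p : ℕ} (hp : 29 ≤ p) (hf : IsProfile f) (hpos : 0 < excess p f)
    (hc : excess p f < coreBound p) (hA : excess p f < bumpBound p (11 / 25) (1 / 1000)) :
    ∃ T₂ ∈ Icc (0 : ℝ) 1, (∀ t ∈ Ioo (0 : ℝ) T₂, f t * den p t ≤ cr p) ∧
      (3 / 2 + mu p) * ∫ t in T₂..1, (f t ^ (p + 1) - semi t ^ (p + 1)) < mu p * excess p f := by
  refine ⟨1, right_mem_Icc.2 zero_le_one, fun t ht => ?_, ?_⟩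
  swap
  · rw [intervalIntegral.integral_same, mul_zero]; exact mul_pos (mu_pos p) hpos
  have hA' : excess p f < bumpBound p (11 / 25) ((11 / 25) ^ 4 / 28) :=
    hA.trans_le (bumpBound_mono p _ (by norm_num) (by norm_num))
  rcases le_total t (11 / 25) with h | h
  · exact bulk_le hp hf (by norm_num) hc hA' ⟨ht.1, h⟩
  have hS1 : semi (11 / 25) ≤ 898 / 1000 := by
    rw [semi, Real.sqrt_le_left (by norm_num)]; norm_num
  have hS0 : 9165 / 10000 ≤ semi (2 / 5) := by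
    rw [semi, Real.le_sqrt' (by norm_num)]; norm_num
  have hw : 0 < √(2 * (1 / 1000) * semi (11 / 25) ^ 3) :=
    Real.sqrt_pos.2 (mul_pos (by norm_num) (pow_pos (semi_pos (by norm_num)) 3))
  have hwt : √(2 * (1 / 1000) * semi (11 / 25) ^ 3) ≤ 11 / 25 := by
    rw [Real.sqrt_le_left (by norm_num)]
    nlinarith [pow_le_one₀ (n := 3) (show 0 ≤ semi (11 / 25) from Real.sqrt_nonneg _) (hS1.trans (by norm_num))]
  have hlt := lt_of_excess p hf (t := 11 / 25) (h := 1 / 1000) hw (by norm_num)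
    (show (11 / 25 : ℝ) < 1 by norm_num) (by norm_num) (abs_le.2 ⟨by linarith, by linarith⟩)
    (by rw [sq_sqrt]; exact mul_nonneg (by norm_num) (pow_nonneg (Real.sqrt_nonneg _) 3))
    (by simpa [bumpBound] using hA)
  have hl := line_bound hf (a := 2 / 5) (b := 11 / 25) (F := 899 / 1000) (by norm_num) (by norm_num) h
    ht.2 (by linarith)
  have hl2 : f t ≤ 899 / 1000 - 7 / 16 * (t - 11 / 25) := by
    refine hl.trans (sub_le_sub_left (mul_le_mul_of_nonneg_right ?_ (by linarith)) _)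
    rw [le_div_iff₀ (by norm_num)]; linarith
  have hc' := crLow_le p hp
  have hd0 : 0 ≤ den p t := by
    rw [den]
    have : 1 / (2 * ((p : ℝ) + 1)) ≤ 1 / 2 := by
      rw [div_le_div_iff₀ (by positivity) (by norm_num)]; linarith [(Nat.cast_nonneg p : (0 : ℝ) ≤ p)]
    have : 0 ≤ (1 + 1 / ((p : ℝ) + 1)) * t ^ 2 / 2 := by positivity
    have := mu_pos p
    linarith
  refine (mul_le_mul_of_nonneg_right hl2 hd0).trans (le_trans ?_ hc')
  obtain ⟨z, hz0, hz, hze⟩ : ∃ z : ℝ, 0 ≤ z ∧ z ≤ 1 / 30 ∧ 1 / ((p : ℝ) + 1) = z :=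
    ⟨1 / ((p : ℝ) + 1), by positivity, by
      rw [div_le_div_iff₀ (by positivity) (by norm_num)]
      have : (29 : ℝ) ≤ p := by exact_mod_cast hp
      linarith, rfl⟩
  rw [den, crLow, show mu p = (1 / ((p : ℝ) + 1)) ^ 2 / 16 by rw [mu]; field_simp,
    show 1 / (2 * ((p : ℝ) + 1)) = 1 / ((p : ℝ) + 1) / 2 by rw [div_div, mul_comm],
    show 29 / 50 / ((p : ℝ) + 1) ^ 2 = 29 / 50 * (1 / ((p : ℝ) + 1)) ^ 2 by
      rw [div_pow, one_pow, mul_one_div], hze]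
  have ht1 := ht.2.le
  have key : ∀ c : ℝ, 0 ≤ c → c ≤ 1 / 30 → (899 / 1000 - 7 / 16 * (t - 11 / 25)) *
      (1 - c / 2 + (1 + c) * t ^ 2 / 2) + c ^ 2 / 16 ≤ 1 - c / 2 := by
    intro c hc0 hc1
    nlinarith [mul_nonneg (sub_nonneg.2 h) (sub_nonneg.2 ht1), mul_nonneg hc0 (sub_nonneg.2 ht1),
      mul_nonneg (mul_nonneg (sub_nonneg.2 h) (sub_nonneg.2 ht1)) (show (0:ℝ) ≤ t by linarith)]
  have hk := key z hz0 hz
  nlinarith [sq_nonneg z, show 899 / 1000 - 7 / 16 * (t - 11 / 25) ≤ 1 by linarith]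

/-! ### The second regime -/

/-- The bump at the comparison point. -/
def bumpH (T : ℝ) : ℝ := T ^ 5 / 20

/-- The slope of the line beyond the comparison point. -/
def slopeLow (T : ℝ) : ℝ := T - T ^ 2 / 10 + T ^ 3 / 6

/-- The value of the line at the comparison point. -/
def topVal (T : ℝ) : ℝ := 1 - T ^ 2 / 2 - T ^ 4 / 8 + T ^ 5 / 20

theorem semi_le_quartic {T : ℝ} (hT0 : 0 ≤ T) (hT : T ≤ 1 / 2) :
    semi T ≤ 1 - T ^ 2 / 2 - T ^ 4 / 8 := by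
  have h2 : T ^ 2 ≤ 1 / 4 := by nlinarith
  rw [semi, Real.sqrt_le_left (by nlinarith)]
  nlinarith [pow_nonneg hT0 6, pow_nonneg hT0 8]

theorem semi_ge_sextic {T : ℝ} (hT0 : 0 ≤ T) (hT : T ≤ 11 / 25) :
    1 - T ^ 2 / 2 - T ^ 4 / 8 - T ^ 6 / 12 ≤ semi T := by
  have h2 : T ^ 2 ≤ 1 / 5 := by nlinarith
  have h4 : T ^ 4 ≤ 1 / 25 := by nlinarith
  refine Real.le_sqrt_of_sq_le ?_
  nlinarith [pow_nonneg hT0 6, mul_le_mul_of_nonneg_left h2 (pow_nonneg hT0 6),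
    mul_le_mul_of_nonneg_left h4 (pow_nonneg hT0 6)]

theorem slope_ge {T : ℝ} (hT0 : 0 < T) (hT : T ≤ 11 / 25) :
    slopeLow T * (T ^ 2 / 5) + bumpH T ≤ semi (T * (1 - T / 5)) - semi T := by
  set T0 := T * (1 - T / 5) with hT0D
  have h0 : 0 ≤ T0 := mul_nonneg hT0.le (by linarith)
  have h01 : T0 ≤ T := mul_le_of_le_one_right hT0.le (by linarith)
  have ea := semi_sq (t := T0) ⟨by linarith, by linarith⟩
  have eb := semi_sq (t := T) ⟨by linarith, by linarith⟩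
  have ha : semi T0 ≤ 1 - T0 ^ 2 / 2 := by
    have := semi_le_quartic h0 (by linarith); linarith [pow_nonneg h0 4]
  have hb : semi T ≤ 1 - T ^ 2 / 2 := by
    have := semi_le_quartic hT0.le (by linarith); linarith [pow_nonneg hT0.le 4]
  have hsum : 0 < semi T0 + semi T :=
    add_pos (semi_pos ⟨by linarith, by linarith⟩) (semi_pos ⟨by linarith, by linarith⟩)
  refine le_of_mul_le_mul_right ?_ hsum
  refine (mul_le_mul_of_nonneg_left (add_le_add ha hb) ?_).trans ?_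
  · have : 0 ≤ slopeLow T := by unfold slopeLow; nlinarith [pow_nonneg hT0.le 3]
    unfold bumpH; positivity
  rw [show (semi T0 - semi T) * (semi T0 + semi T) = T ^ 2 - T0 ^ 2 by linear_combination ea - eb, hT0D]
  unfold slopeLow bumpH
  have h3 : 0 ≤ T ^ 5 := pow_nonneg hT0.le 5
  nlinarith [mul_le_mul_of_nonneg_left hT h3, mul_le_mul_of_nonneg_left hT (pow_nonneg hT0.le 6),
    mul_le_mul_of_nonneg_left hT (pow_nonneg hT0.le 7), pow_nonneg hT0.le 6, pow_nonneg hT0.le 7,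
    pow_nonneg hT0.le 8, pow_nonneg hT0.le 4]

/-- The coefficients of the line polynomial. -/
theorem line_coeff {T : ℝ} (hT0 : 0 ≤ T) (hT : T ≤ 11 / 25) :
    -(3 / 8) + 1 / 20 * T + 1 / 16 * T ^ 2 + 1 / 40 * T ^ 3 - 1 / 32 * T ^ 4 - 1 / 240 * T ^ 5 - 1 / 96 * T ^ 6 + 1 / 240 * T ^ 7 ≤ 0 ∧
    0 ≤ 9 / 50 + 6 / 5 * T + 31 / 20 * T ^ 2 - 741 / 250 * T ^ 3 - 77 / 16 * T ^ 4 + 59 / 1000 * T ^ 5 - 359 / 600 * T ^ 6 - 197 / 500 * T ^ 7 - 1937 / 2400 * T ^ 8 - 47 / 2000 * T ^ 9 - 257 / 1800 * T ^ 10 + 1 / 60 * T ^ 11 ∧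
    -(27 / 250 * T ^ 3) - 2673 / 2500 * T ^ 4 - 351 / 100 * T ^ 5 - 191 / 50 * T ^ 6 - 109 / 500 * T ^ 7 - 12673 / 15000 * T ^ 8 - 117 / 200 * T ^ 9 - 191 / 300 * T ^ 10 - 1 / 30 * T ^ 11 - 1 / 9 * T ^ 12 ≤ 0 := by
  have hk : ∀ n : ℕ, T ^ (n + 1) ≤ 11 / 25 * T ^ n := fun n => by
    rw [pow_succ, mul_comm]; exact mul_le_mul_of_nonneg_right hT (pow_nonneg hT0 n)
  have hn : ∀ n : ℕ, 0 ≤ T ^ n := fun n => pow_nonneg hT0 n
  refine ⟨?_, ?_, ?_⟩
  · linarith [hk 0, hk 1, hk 2, hk 6, hn 4, hn 5, hn 6, hT0]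
  · linarith [hk 0, hk 1, hk 2, hk 3, hk 4, hk 5, hk 6, hk 7, hk 8, hk 9, hn 1, hn 11]
  · linarith [hn 3, hn 4, hn 5, hn 6, hn 7, hn 8, hn 9, hn 10, hn 11, hn 12]

/-- The sum of the first three coefficients. -/
theorem line_coeff_sum {T : ℝ} (hT0 : 0 ≤ T) (hT : T ≤ 11 / 25) :
    -(3 / 8) + 1 / 20 * T + 1 / 16 * T ^ 2 + 1 / 40 * T ^ 3 - 1 / 32 * T ^ 4 - 1 / 240 * T ^ 5 - 1 / 96 * T ^ 6 + 1 / 240 * T ^ 7 + (3 / 50 - 1 / 2 * T - 691 / 300 * T ^ 2 + 1 / 8 * T ^ 3 + 13 / 120 * T ^ 4 - 1 / 120 * T ^ 5 - 541 / 1800 * T ^ 6 - 1 / 240 * T ^ 7 - 29 / 450 * T ^ 8 + 1 / 60 * T ^ 9) + (9 / 50 + 6 / 5 * T + 31 / 20 * T ^ 2 - 741 / 250 * T ^ 3 - 77 / 16 * T ^ 4 + 59 / 1000 * T ^ 5 - 359 / 600 * T ^ 6 - 197 / 500 * T ^ 7 - 1937 / 2400 * T ^ 8 - 47 / 2000 * T ^ 9 - 257 / 1800 * T ^ 10 + 1 / 60 * T ^ 11) ≤ 0 := by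
  have hn : ∀ n : ℕ, 0 ≤ T ^ n := fun n => pow_nonneg hT0 n
  have hhi : -(4735 / 1000) * T ^ 4 + 47 / 1000 * T ^ 5 + 17 / 1000 * T ^ 11 ≤ 0 := by
    have h5 : T ^ 5 ≤ T ^ 4 := pow_le_pow_of_le_one hT0 (by linarith) (by norm_num)
    have h11 : T ^ 11 ≤ T ^ 4 := pow_le_pow_of_le_one hT0 (by linarith) (by norm_num)
    linarith [hn 4]
  have hlo : -(135 / 1000) + 3 / 4 * T - 690 / 1000 * T ^ 2 - 2813 / 1000 * T ^ 3 ≤ 0 := by
    nlinarith [sq_nonneg (T - 23 / 100), mul_nonneg hT0 (sq_nonneg (T - 23 / 100))]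
  linarith [hn 2, hn 3, hn 4, hn 5, hn 6, hn 7, hn 8, hn 9, hn 10, hn 11]

/-- A quadratic in `s` below its chord, with a nonpositive cubic term. -/
theorem quad_chord {A0 A1 A2 A3 s : ℝ} (h0 : A0 ≤ 0) (h2 : 0 ≤ A2) (h3 : A3 ≤ 0)
    (h : A0 + A1 + A2 ≤ 0) (hs0 : 0 ≤ s) (hs : s ≤ 1) :
    A0 + A1 * s + A2 * s ^ 2 + A3 * s ^ 3 ≤ 0 := by
  nlinarith [mul_nonneg h2 (mul_nonneg hs0 (sub_nonneg.2 hs)), mul_nonpos_of_nonneg_of_nonpos hs0 h,
    mul_nonpos_of_nonneg_of_nonpos (sub_nonneg.2 hs) h0, mul_nonpos_of_nonpos_of_nonneg h3 (pow_nonneg hs0 3)]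

/-- The line stays below the threshold up to `T + T² (3/5 + 2 T)`. -/
theorem line_poly {T s : ℝ} (hT0 : 0 < T) (hT : T ≤ 11 / 25) (hs0 : 0 ≤ s) (hs : s ≤ 1) :
    (1 + (T + s * (3 / 5 + 2 * T) * T ^ 2) ^ 2 / 2) *
        (topVal T - slopeLow T * (s * (3 / 5 + 2 * T) * T ^ 2)) +
      T ^ 4 / 12 * (1 - (topVal T - slopeLow T * (s * (3 / 5 + 2 * T) * T ^ 2)) +
        (T + s * (3 / 5 + 2 * T) * T ^ 2) ^ 2 *
          (topVal T - slopeLow T * (s * (3 / 5 + 2 * T) * T ^ 2))) ≤ 1 := by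
  unfold topVal slopeLow
  obtain ⟨h0, h2, h3⟩ := line_coeff hT0.le hT
  have h := mul_nonpos_of_nonneg_of_nonpos (pow_nonneg hT0.le 4)
    (quad_chord h0 h2 h3 (line_coeff_sum hT0.le hT) hs0 hs)
  linarith

end Vale.Agent.P237.All.Transport.Tiny
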