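import Vale.Agent.P237.All.Tiny.Ratio

/-!
P237, every dimension, tiny excess: the pointwise bound without a test function, and what concavity
gives from a small excess (`notes/P237h8/tiny-k-02Dec.md`).
-/

noncomputable section

open MeasureTheory Set Real intervalIntegral

namespace Vale.Agent.P237.All.Transport.Tiny

variable {f : ℝ → ℝ}

/-- The weight of the variance. -/
def wgt (p : ℕ) : ℝ := 1 / (2 * ((p : ℝ) + 3))

/-- The margin. -/
def mu (p : ℕ) : ℝ := 1 / (16 * ((p : ℝ) + 1) ^ 2)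

theorem mu_pos (p : ℕ) : 0 < mu p := by unfold mu; positivity

/-- The integrand that a profile failing the bound makes nonnegative on average. -/
def gam (p : ℕ) (t x : ℝ) : ℝ :=
  x ^ (p + 1) - semi t ^ (p + 1) +
    wgt p * (((p : ℝ) + 3) * t ^ 2 * (x ^ (p + 1) - semi t ^ (p + 1)) -
      (x ^ (p + 3) - semi t ^ (p + 3))) -
    cr p * (((p : ℝ) + 1) / p) * (x ^ p - semi t ^ p)

/-- The threshold: below `cr p / den p t` the integrand is negative. -/
def den (p : ℕ) (t : ℝ) : ℝ :=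
  1 + mu p - 1 / (2 * ((p : ℝ) + 1)) + (1 + 1 / ((p : ℝ) + 1)) * t ^ 2 / 2

theorem den_le (p : ℕ) {t : ℝ} (ht : t ∈ Icc (-1 : ℝ) 1) : den p t ≤ 3 / 2 + mu p := by
  have h2 : t ^ 2 ≤ 1 := by nlinarith [ht.1, ht.2]
  have : (1 + 1 / ((p : ℝ) + 1)) * t ^ 2 ≤ 1 + 1 / ((p : ℝ) + 1) :=
    mul_le_of_le_one_right (by positivity) h2
  have e : 1 / (2 * ((p : ℝ) + 1)) = 1 / ((p : ℝ) + 1) / 2 := by rw [div_div, mul_comm]
  rw [den, e]
  linarith

/-- The integrand against the moment bound with factor `θ`. -/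
theorem gam_le_of {p : ℕ} (hp : 1 ≤ p) {t x θ : ℝ} (ht : t ∈ Ioo (-1 : ℝ) 1) (hx : semi t ≤ x)
    (hθ : (p : ℝ) * θ * ((x / semi t) ^ (p + 1) - 1) ≤
      ((p : ℝ) + 1) * (x / semi t * ((x / semi t) ^ p - 1))) :
    gam p t x ≤ (den p t - mu p - cr p * θ / x) * (x ^ (p + 1) - semi t ^ (p + 1)) := by
  have hs := semi_pos ht
  have hs2 := semi_sq (t := t) (Ioo_subset_Icc_self ht)
  set s := semi t with hsD
  obtain ⟨r, hr, rfl⟩ : ∃ r, 1 ≤ r ∧ x = s * r :=
    ⟨x / s, (one_le_div hs).2 hx, by field_simp⟩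
  have hr0 : 0 < r := by linarith
  have hp0 : (0 : ℝ) < p := Nat.cast_pos.2 (by omega)
  have hm : (0 : ℝ) < (p : ℝ) + 1 := by linarith
  -- the power mean
  have hA : ((p : ℝ) + 3) * (r ^ (p + 1) - 1) ≤ ((p : ℝ) + 1) * (r ^ (p + 3) - 1) := by
    have h : ∑ i ∈ Finset.range (p + 1), r ^ i ≤ ((p : ℝ) + 1) * r ^ (p + 1) :=
      (Finset.sum_le_sum fun i hi => pow_le_pow_right₀ hr (le_of_lt (Finset.mem_range.1 hi))).trans
        (le_of_eq (by simp))
    have h' : r ^ (p + 1) ≤ r ^ (p + 2) := pow_le_pow_right₀ hr (by omega)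
    have e : r ^ (p + 3) - 1 = (r - 1) *
        (∑ i ∈ Finset.range (p + 1), r ^ i + r ^ (p + 1) + r ^ (p + 2)) := by
      rw [← Finset.sum_range_succ (fun i => r ^ i), ← Finset.sum_range_succ (fun i => r ^ i),
        mul_comm, geom_sum_mul]
    rw [← geom_sum_mul r (p + 1), e]
    nlinarith [mul_le_mul_of_nonneg_left h' hm.le, sub_nonneg.2 hr]
  -- the first moment
  have hB : (p : ℝ) * θ * (r ^ (p + 1) - 1) ≤ ((p : ℝ) + 1) * (r * (r ^ p - 1)) := by
    rwa [mul_div_cancel_left₀ r hs.ne'] at hθ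
  have hA' : s ^ 2 * ((p : ℝ) + 3) / ((p : ℝ) + 1) * ((s * r) ^ (p + 1) - s ^ (p + 1)) ≤
      (s * r) ^ (p + 3) - s ^ (p + 3) := by
    rw [mul_pow, mul_pow, div_mul_eq_mul_div, div_le_iff₀ hm]
    have e : s ^ (p + 3) = s ^ 2 * s ^ (p + 1) := by ring
    rw [e]
    nlinarith [mul_le_mul_of_nonneg_left hA (show 0 ≤ s ^ 2 * s ^ (p + 1) by positivity)]
  have hB' : θ * ((s * r) ^ (p + 1) - s ^ (p + 1)) / (s * r) ≤
      ((p : ℝ) + 1) / p * ((s * r) ^ p - s ^ p) := by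
    rw [mul_pow, mul_pow, div_mul_eq_mul_div, div_le_div_iff₀ (by positivity) hp0]
    rw [show s ^ (p + 1) = s ^ p * s by rw [pow_succ]]
    nlinarith [mul_le_mul_of_nonneg_left hB (show 0 ≤ s ^ p * s by positivity)]
  have hw : 0 ≤ wgt p := by unfold wgt; positivity
  have h1 := mul_le_mul_of_nonneg_left hA' hw
  have h2 := mul_le_mul_of_nonneg_left hB' (cr_pos p).le
  have e1 : wgt p * (((p : ℝ) + 3) * t ^ 2 * ((s * r) ^ (p + 1) - s ^ (p + 1))) =
      t ^ 2 / 2 * ((s * r) ^ (p + 1) - s ^ (p + 1)) := by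
    rw [wgt]; field_simp
  have e2 : wgt p * (s ^ 2 * ((p : ℝ) + 3) / ((p : ℝ) + 1) * ((s * r) ^ (p + 1) - s ^ (p + 1))) =
      (1 - t ^ 2) / (2 * ((p : ℝ) + 1)) * ((s * r) ^ (p + 1) - s ^ (p + 1)) := by
    rw [wgt, hs2]; field_simp
  rw [e2] at h1
  rw [gam, ← hsD, mul_sub (wgt p), e1, den]
  have key : (1 + mu p - 1 / (2 * ((p : ℝ) + 1)) + (1 + 1 / ((p : ℝ) + 1)) * t ^ 2 / 2 - mu p -
      cr p * θ / (s * r)) * ((s * r) ^ (p + 1) - s ^ (p + 1)) =
      ((s * r) ^ (p + 1) - s ^ (p + 1)) + t ^ 2 / 2 * ((s * r) ^ (p + 1) - s ^ (p + 1)) -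
      (1 - t ^ 2) / (2 * ((p : ℝ) + 1)) * ((s * r) ^ (p + 1) - s ^ (p + 1)) -
      cr p * (θ * ((s * r) ^ (p + 1) - s ^ (p + 1)) / (s * r)) := by
    field_simp
    ring
  rw [key, mul_assoc]
  linarith

/-- The bound from Bernoulli. -/
theorem gam_le {p : ℕ} (hp : 1 ≤ p) {t x : ℝ} (ht : t ∈ Ioo (-1 : ℝ) 1) (hx : semi t ≤ x) :
    gam p t x ≤ (den p t - mu p - cr p / x) * (x ^ (p + 1) - semi t ^ (p + 1)) := by
  have h1 : 1 ≤ x / semi t := (one_le_div (semi_pos ht)).2 hx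
  have h := one_add_mul_le_pow (a := x / semi t - 1) (by linarith) (p + 1)
  rw [add_sub_cancel] at h
  push_cast at h
  simpa using gam_le_of hp ht hx (θ := 1) (by
    rw [show x / semi t * ((x / semi t) ^ p - 1) = (x / semi t) ^ (p + 1) - x / semi t by
      rw [pow_succ]; ring]
    linarith)

/-- The bound to second order, near the semicircle. -/
theorem gam_le_two {p : ℕ} (hp : 1 ≤ p) {t x : ℝ} (ht : t ∈ Ioo (-1 : ℝ) 1) (hx : semi t ≤ x)
    (hd : (p : ℝ) * (x / semi t - 1) ≤ 2 / 9) :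
    gam p t x ≤ (den p t - mu p - cr p * (1 + 9 / 20 * (x / semi t - 1)) / x) *
      (x ^ (p + 1) - semi t ^ (p + 1)) := by
  refine gam_le_of hp ht hx ?_
  obtain ⟨d, hd0, hrd⟩ : ∃ d, 0 ≤ d ∧ x / semi t = 1 + d :=
    ⟨x / semi t - 1, sub_nonneg.2 ((one_le_div (semi_pos ht)).2 hx), by ring⟩
  rw [hrd, add_sub_cancel_left] at hd
  rw [hrd, add_sub_cancel_left]
  set G := ∑ i ∈ Finset.range p, (1 + d) ^ i
  have e1 : (1 + d) ^ p - 1 = d * G := by rw [← geom_sum_mul, add_sub_cancel_left, mul_comm]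
  have hG : (p : ℝ) + d * ((p : ℝ) * ((p : ℝ) + 1) / 2) ≤ (1 + d) * G := by
    rw [Finset.mul_sum]
    refine le_trans (le_of_eq ?_) (Finset.sum_le_sum fun i _ =>
      (show 1 + ((i : ℝ) + 1) * d ≤ (1 + d) * (1 + d) ^ i by
        have := one_add_mul_le_pow (a := d) (by linarith) (i + 1)
        rw [pow_succ'] at this; push_cast at this; linarith))
    clear e1 hd hrd
    induction p with
    | zero => simp
    | succ q _ =>
      have : ∀ n : ℕ, ∑ i ∈ Finset.range n, (1 + ((i : ℝ) + 1) * d) =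
          (n : ℝ) + d * ((n : ℝ) * ((n : ℝ) + 1) / 2) := by
        intro n
        induction n with
        | zero => simp
        | succ k ih => rw [Finset.sum_range_succ, ih]; push_cast; ring
      exact (this _).symm
  rw [show (1 + d) ^ (p + 1) - 1 = d * (1 + (1 + d) * G) by rw [pow_succ]; linear_combination (1 + d) * e1,
    e1]
  have hp' : (1 : ℝ) ≤ p := by exact_mod_cast hp
  have hk : 0 ≤ (p : ℝ) + 1 - (p : ℝ) * (1 + 9 / 20 * d) := by nlinarith
  have h1 := mul_le_mul_of_nonneg_right hG hk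
  have hpd : 0 ≤ (p : ℝ) * d := by positivity
  have h3 : (p : ℝ) * (1 + 9 / 20 * d) ≤
      ((p : ℝ) + d * ((p : ℝ) * ((p : ℝ) + 1) / 2)) * ((p : ℝ) + 1 - (p : ℝ) * (1 + 9 / 20 * d)) := by
    nlinarith [mul_nonneg (mul_nonneg hpd (show (0 : ℝ) ≤ (p : ℝ) + 1 by linarith))
      (show 0 ≤ 1 / 2 - 9 / 20 * (1 + (p : ℝ) * d / 2) by linarith)]
  nlinarith [mul_le_mul_of_nonneg_left (h3.trans h1) hd0]

/-- Below the threshold. -/
theorem gam_neg {p : ℕ} (hp : 1 ≤ p) {t x : ℝ} (ht : t ∈ Ioo (-1 : ℝ) 1) (hx : semi t ≤ x)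
    (h : x * den p t ≤ cr p) : gam p t x ≤ -mu p * (x ^ (p + 1) - semi t ^ (p + 1)) := by
  have hs := semi_pos ht
  refine (gam_le hp ht hx).trans (mul_le_mul_of_nonneg_right ?_
    (sub_nonneg.2 (pow_le_pow_left₀ hs.le hx _)))
  have : den p t ≤ cr p / x := by rw [le_div_iff₀ (hs.trans_le hx)]; linarith
  linarith

/-- Everywhere. -/
theorem gam_le_crude {p : ℕ} (hp : 1 ≤ p) {t x : ℝ} (ht : t ∈ Ioo (-1 : ℝ) 1) (hx : semi t ≤ x) :
    gam p t x ≤ 3 / 2 * (x ^ (p + 1) - semi t ^ (p + 1)) := by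
  have hs := semi_pos ht
  refine (gam_le hp ht hx).trans (mul_le_mul_of_nonneg_right ?_
    (sub_nonneg.2 (pow_le_pow_left₀ hs.le hx _)))
  have := den_le p (Ioo_subset_Icc_self ht)
  have : 0 ≤ cr p / x := div_nonneg (cr_pos p).le (hs.trans_le hx).le
  linarith

/-- The algebra of the chord. -/
theorem chord_core {X L A B a b c τ k : ℝ} (hk : 0 ≤ k) (hc : 0 < c) (hXL : L ≤ X) (hcL : c ≤ L)
    (hA : c ≤ A) (hB : c ≤ B) (hc2 : c ^ 2 = 1 - τ ^ 2) (ea : A ^ 2 = 1 - a ^ 2)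
    (eb : B ^ 2 = 1 - b ^ 2) (ha : |a| ≤ τ) (hb : |b| ≤ τ)
    (hsq : X ^ 2 - L ^ 2 = k * ((a - b) ^ 2 + (A - B) ^ 2)) :
    (X - L) * (2 * c ^ 3) ≤ k * (a - b) ^ 2 := by
  have h0 : 0 ≤ τ := (abs_nonneg a).trans ha
  have hdS : (A - B) ^ 2 * c ^ 2 ≤ (a - b) ^ 2 * τ ^ 2 := by
    have e2 : (A - B) ^ 2 * (A + B) ^ 2 = (a - b) ^ 2 * (a + b) ^ 2 := by
      rw [← mul_pow, ← mul_pow, show (A - B) * (A + B) = -((a - b) * (a + b)) by
        linear_combination ea - eb, neg_sq]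
    have hsum : (2 * c) ^ 2 ≤ (A + B) ^ 2 := pow_le_pow_left₀ (by positivity) (by linarith) 2
    have hab : (a + b) ^ 2 ≤ (2 * τ) ^ 2 :=
      sq_le_sq.2 ((abs_add_le a b).trans (by rw [abs_of_nonneg (by linarith : (0 : ℝ) ≤ 2 * τ)]; linarith))
    have h1 := mul_le_mul_of_nonneg_left hsum (sq_nonneg (A - B))
    have h2 := mul_le_mul_of_nonneg_left hab (sq_nonneg (a - b))
    linarith
  have h1 : (X - L) * (2 * c) ≤ X ^ 2 - L ^ 2 := by
    rw [show X ^ 2 - L ^ 2 = (X - L) * (X + L) by ring]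
    exact mul_le_mul_of_nonneg_left (by linarith) (by linarith)
  have h2 := mul_le_mul_of_nonneg_right h1 (sq_nonneg c)
  have h3 := mul_le_mul_of_nonneg_left hdS hk
  have h4 : k * (a - b) ^ 2 * (c ^ 2 + τ ^ 2) = k * (a - b) ^ 2 := by rw [hc2]; ring
  rw [hsq] at h2
  linarith

/-- The semicircle lies above its chord by at most the parabola. -/
theorem semi_chord {a b τ θ : ℝ} (ha : |a| ≤ τ) (hb : |b| ≤ τ) (hτ : τ < 1) (hθ : θ ∈ Icc (0 : ℝ) 1) :
    semi ((1 - θ) * a + θ * b) ≤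
      (1 - θ) * semi a + θ * semi b + θ * (1 - θ) * ((a - b) ^ 2 / (2 * semi τ ^ 3)) := by
  have h0 : 0 ≤ τ := (abs_nonneg a).trans ha
  have ha' := abs_le.1 ha
  have hb' := abs_le.1 hb
  have hst := semi_pos (t := τ) ⟨by linarith, hτ⟩
  have hsa := semi_pos (t := a) ⟨by linarith, by linarith⟩
  have hsb := semi_pos (t := b) ⟨by linarith, by linarith⟩
  have hxa : (1 - θ) * a + θ * b ∈ Icc (-τ) τ := by
    constructor <;> nlinarith [hθ.1, hθ.2]
  have hsx := semi_pos (t := (1 - θ) * a + θ * b) ⟨by linarith [hxa.1], by linarith [hxa.2]⟩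
  have ea := semi_sq (t := a) ⟨by linarith, by linarith⟩
  have eb := semi_sq (t := b) ⟨by linarith, by linarith⟩
  have ex := semi_sq (t := (1 - θ) * a + θ * b) ⟨by linarith [hxa.1], by linarith [hxa.2]⟩
  have et := semi_sq (t := τ) ⟨by linarith, hτ.le⟩
  have hta : semi τ ≤ semi a := Real.sqrt_le_sqrt (by nlinarith)
  have htb : semi τ ≤ semi b := Real.sqrt_le_sqrt (by nlinarith)
  have htx : semi τ ≤ semi ((1 - θ) * a + θ * b) := Real.sqrt_le_sqrt (by nlinarith [hxa.1, hxa.2])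
  set L := (1 - θ) * semi a + θ * semi b with hL
  have hLt : semi τ ≤ L := by rw [hL]; nlinarith [hθ.1, hθ.2]
  set X := semi ((1 - θ) * a + θ * b)
  have hprod : 0 ≤ θ * (1 - θ) := mul_nonneg hθ.1 (sub_nonneg.2 hθ.2)
  rcases le_total X L with hle | hle
  · have : 0 ≤ θ * (1 - θ) * ((a - b) ^ 2 / (2 * semi τ ^ 3)) := by positivity
    linarith
  have hsq : X ^ 2 - L ^ 2 = θ * (1 - θ) * ((a - b) ^ 2 + (semi a - semi b) ^ 2) := by
    rw [ex, hL]; linear_combination (θ - 1) * ea - θ * eb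
  have hkey := chord_core hprod hst hle hLt hta htb et ea eb ha hb hsq
  rw [mul_div_assoc', ← sub_le_iff_le_add', le_div_iff₀ (by positivity)]
  linarith

/-- An excess `h` at `t₀` costs mass. -/
theorem excess_lower (p : ℕ) (hf : IsProfile f) {t₀ w h τ : ℝ} (hw : 0 < w) (hh : 0 ≤ h)
    (hτ : τ < 1) (ht₀ : |t₀| ≤ τ) (ht₁ : |t₀ - w| ≤ τ) (hw2 : w ^ 2 ≤ 2 * h * semi τ ^ 3)
    (hft : semi t₀ + h ≤ f t₀) :
    ((p : ℝ) + 1) * semi τ ^ p * h * w / 3 ≤ ∫ t in (t₀ - w)..t₀, (f t ^ (p + 1) - semi t ^ (p + 1)) := by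
  have ha := abs_le.1 ht₀
  have hb := abs_le.1 ht₁
  have hmem : ∀ t ∈ Icc (t₀ - w) t₀, t ∈ Ioo (-1 : ℝ) 1 := fun t ht =>
    ⟨by linarith [ht.1], by linarith [ht.2]⟩
  have hst := semi_pos (t := τ) ⟨by linarith [abs_nonneg t₀], hτ⟩
  have hs := isProfile_semi
  have hi1 : IntervalIntegrable (fun t => f t ^ (p + 1) - semi t ^ (p + 1)) volume (t₀ - w) t₀ :=
    (int_pow hf (p + 1) ⟨by linarith, by linarith⟩ ⟨by linarith, by linarith⟩).sub
      (int_pow hs (p + 1) ⟨by linarith, by linarith⟩ ⟨by linarith, by linarith⟩)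
  have hpoint : ∀ t ∈ Icc (t₀ - w) t₀,
      ((p : ℝ) + 1) * semi τ ^ p * h * ((t - (t₀ - w)) / w) ^ 2 ≤ f t ^ (p + 1) - semi t ^ (p + 1) := by
    intro t ht
    set θ := (t₀ - t) / w with hθ
    have hθ01 : θ ∈ Icc (0 : ℝ) 1 :=
      ⟨div_nonneg (by linarith [ht.2]) hw.le, (div_le_one hw).2 (by linarith [ht.1])⟩
    have et : t = (1 - θ) * t₀ + θ * (t₀ - w) := by rw [hθ]; field_simp; ring
    have e1 : (t - (t₀ - w)) / w = 1 - θ := by rw [hθ]; field_simp; ring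
    rw [e1]
    have htI := hmem t ht
    have hconc : (1 - θ) * f t₀ + θ * f (t₀ - w) ≤ f t := by
      have := hf.1.2 (hmem t₀ (right_mem_Icc.2 (by linarith))) (hmem _ (left_mem_Icc.2 (by linarith)))
        (sub_nonneg.2 hθ01.2) hθ01.1 (by ring)
      simpa only [smul_eq_mul, ← et] using this
    have hchord := semi_chord ht₀ ht₁ hτ hθ01
    rw [← et, show (t₀ - (t₀ - w)) ^ 2 = w ^ 2 by ring] at hchord
    have hq : w ^ 2 / (2 * semi τ ^ 3) ≤ h := by
      rw [div_le_iff₀ (by positivity)]; linarith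
    have hfw := mul_le_mul_of_nonneg_left (hf.2.2 _ (hmem (t₀ - w) (left_mem_Icc.2 (by linarith)))) hθ01.1
    have hf0 := mul_le_mul_of_nonneg_left hft (sub_nonneg.2 hθ01.2)
    have hq' := mul_le_mul_of_nonneg_left hq (mul_nonneg hθ01.1 (sub_nonneg.2 hθ01.2))
    have hdiff : h * (1 - θ) ^ 2 ≤ f t - semi t := by
      change h * (1 - θ) ^ 2 ≤ f t - semi t
      nlinarith
    have htτ : semi τ ≤ semi t :=
      Real.sqrt_le_sqrt (by nlinarith [show -τ ≤ t by linarith [ht.1], show t ≤ τ by linarith [ht.2]])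
    have hgeom : ((p : ℝ) + 1) * semi τ ^ p * (f t - semi t) ≤ f t ^ (p + 1) - semi t ^ (p + 1) := by
      have hst' := semi_pos htI
      rw [← geom_sum₂_mul (f t) (semi t) (p + 1)]
      refine mul_le_mul_of_nonneg_right ?_ (sub_nonneg.2 (hf.2.2 t htI))
      rw [show ((p : ℝ) + 1) * semi τ ^ p = ∑ _i ∈ Finset.range (p + 1), semi τ ^ p by simp]
      refine Finset.sum_le_sum fun i hi => ?_
      have hi' := Finset.mem_range.1 hi
      calc semi τ ^ p = semi τ ^ i * semi τ ^ (p - i) := by rw [← pow_add]; congr 1; omega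
        _ ≤ f t ^ i * semi t ^ (p + 1 - 1 - i) := by
          rw [show p + 1 - 1 - i = p - i by omega]
          exact mul_le_mul (pow_le_pow_left₀ hst.le (htτ.trans (hf.2.2 t htI)) _)
            (pow_le_pow_left₀ hst.le htτ _) (by positivity) (pow_nonneg (hst'.le.trans (hf.2.2 t htI)) _)
    refine le_trans ?_ hgeom
    rw [mul_assoc (((p : ℝ) + 1) * semi τ ^ p)]
    exact mul_le_mul_of_nonneg_left hdiff (by positivity)
  refine le_trans (le_of_eq ?_) (intervalIntegral.integral_mono_on (by linarith) ?_ hi1 hpoint)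
  · rw [intervalIntegral.integral_const_mul, intervalIntegral.integral_comp_sub_right (fun t => (t / w) ^ 2),
      sub_self, sub_sub_cancel]
    simp only [div_pow]
    rw [intervalIntegral.integral_div, integral_pow]
    field_simp
    ring
  · exact (by fun_prop : Continuous fun t : ℝ =>
      ((p : ℝ) + 1) * semi τ ^ p * h * ((t - (t₀ - w)) / w) ^ 2).intervalIntegrable _ _

end Vale.Agent.P237.All.Transport.Tiny
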